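import Vale.Agent.P319.Alg.ClassPT

/-!
Factorization over a finite field `K` of characteristic `p` from factorization over the prime
field (Berlekamp algebra over the prime field), for an arbitrary presentation of `K`.
-/

open Polynomial

namespace Vale.Agent.N319

open Vale.Agent.Lib.PolyTime hiding C P
open Vale.Agent.Lib.Dep Vale.Agent.P319 Vale.Agent.P319.Alg

/-! ### Kernels of linear maps on an algebra -/

section Ker

variable {F M ι : Type} [Field F] [CommRing M] [Algebra F M]

open Classical in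
/-- an element of the list on which `l` does not vanish, if there is one -/
noncomputable def piv (l : M → F) (vs : List M) : M := (vs.find? fun w => decide (l w ≠ 0)).getD 0

/-- one elimination step -/
noncomputable def elim (l : M → F) (vs : List M) : List M :=
  vs.map fun v => v - algebraMap F M (l v * (l (piv l vs))⁻¹) * piv l vs

/-- elimination for a list of functionals -/
noncomputable def kerL (is : List ι) (l : ι → M → F) (vs : List M) : List M :=
  is.foldl (fun us i => elim (l i) us) vs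

variable (F) in
/-- the span of a list -/
abbrev spn (vs : List M) : Submodule F M := Submodule.span F {v | v ∈ vs}

theorem mem_spn {vs : List M} {v : M} (h : v ∈ vs) : v ∈ spn F vs := Submodule.subset_span h

omit [Algebra F M] in
theorem piv_cases (l : M → F) (vs : List M) :
    (piv l vs ∈ vs ∧ l (piv l vs) ≠ 0) ∨ (piv l vs = 0 ∧ ∀ v ∈ vs, l v = 0) := by
  classical
  unfold piv
  rcases h : vs.find? fun w => decide (l w ≠ 0) with _ | w
  · right
    rw [List.find?_eq_none] at h
    exact ⟨rfl, fun v hv => by simpa using h v hv⟩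
  · left
    exact ⟨List.mem_of_find?_eq_some h, by simpa using List.find?_some h⟩

theorem piv_mem (l : M → F) (vs : List M) : piv l vs ∈ spn F vs := by
  rcases piv_cases l vs with h | h
  · exact mem_spn h.1
  · rw [h.1]; exact zero_mem _

theorem spn_elim (l : M →ₗ[F] F) (vs : List M) :
    spn F (elim l vs) = spn F vs ⊓ LinearMap.ker l := by
  let π : M →ₗ[F] M := LinearMap.id - (l.smulRight ((l (piv l vs))⁻¹ • piv l vs))
  have hπ : ∀ v, π v = v - algebraMap F M (l v * (l (piv l vs))⁻¹) * piv l vs := fun v => by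
    simp [π, Algebra.smul_def, mul_assoc]
  have h1 : spn F (elim l vs) = (spn F vs).map π := by
    rw [spn, spn, Submodule.map_span]
    congr 1
    ext v
    simp only [elim, List.mem_map, Set.mem_ofPred_eq, Set.mem_image, hπ]
  rw [h1]
  apply le_antisymm
  · rintro _ ⟨v, hv, rfl⟩
    refine ⟨?_, ?_⟩
    · rw [hπ, ← Algebra.smul_def]
      exact sub_mem hv (Submodule.smul_mem _ _ (piv_mem l vs))
    · rw [SetLike.mem_coe, LinearMap.mem_ker, hπ, ← Algebra.smul_def, map_sub, map_smul]
      rcases piv_cases l vs with h | h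
      · rw [smul_eq_mul, mul_assoc, inv_mul_cancel₀ h.2, mul_one, sub_self]
      · have : spn F vs ≤ LinearMap.ker l := Submodule.span_le.2 h.2
        rw [h.1, map_zero, smul_zero, sub_zero]
        exact this hv
  · rintro v ⟨hv, hl⟩
    refine ⟨v, hv, ?_⟩
    rw [hπ, LinearMap.mem_ker.1 hl, zero_mul, map_zero, zero_mul, sub_zero]

theorem mem_kerL (is : List ι) (l : ι → M →ₗ[F] F) (vs : List M) (v : M) :
    v ∈ spn F (kerL is (fun i => l i) vs) ↔ v ∈ spn F vs ∧ ∀ i ∈ is, l i v = 0 := by
  unfold kerL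
  induction is generalizing vs with
  | nil => simp
  | cons i is ih =>
    rw [List.foldl_cons, ih, spn_elim, Submodule.mem_inf, LinearMap.mem_ker]
    simp only [List.mem_cons, forall_eq_or_imp, and_assoc]

theorem exists_not_mem {vs : List M} {v : M} (hv : v ∈ spn F vs) {S : Submodule F M} (h : v ∉ S) :
    ∃ w ∈ vs, w ∉ S := by
  by_contra h'
  push Not at h'
  exact h (Submodule.span_le.2 h' hv)

/-- the pairs `(i, j)` with `i < n` and `j < m` -/
def idx (n m : ℕ) : List (ℕ × ℕ) := (List.range n).flatMap fun i => (List.range m).map fun j => (i, j)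

theorem mem_idx {n m : ℕ} {q : ℕ × ℕ} : q ∈ idx n m ↔ q.1 < n ∧ q.2 < m := by
  obtain ⟨i, j⟩ := q
  simp [idx]

/-- the kernel of a map to polynomials over `K`, with coordinates `co` on `K` -/
noncomputable def ker2 {K : Type} [CommRing K] (co : K → F[X]) (n m : ℕ) (Φ : M → K[X])
    (vs : List M) : List M :=
  kerL (idx n m) (fun q v => (co ((Φ v).coeff q.1)).coeff q.2) vs

/-- polynomials over `F` of degree at most `d` which vanish at `b` modulo `g` -/
noncomputable def relsK {K : Type} [CommRing K] [Algebra F K] (co : K → F[X]) (m : ℕ) (g b : K[X])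
    (d : ℕ) : List F[X] :=
  ker2 co g.natDegree m (fun u : F[X] => aeval b u %ₘ g) (monos F (d + 1))

variable {K : Type} [Field K] [Algebra F K]

/-- a presentation of `K` over `F`: a spanning list and injective coordinates -/
structure Pres (bs : List K) (co : K →ₗ[F] F[X]) : Prop where
  /-- the list spans -/
  top : ∀ x, x ∈ spn F bs
  /-- the coordinates determine the element -/
  inj : Function.Injective co
  /-- the number of coordinates -/
  deg : ∀ x, (co x).degree < bs.length

variable {bs : List K} {co : K →ₗ[F] F[X]}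

theorem Pres.mem_ker2 (h : Pres bs co) (Φ : M →ₗ[F] K[X]) {n : ℕ} (hΦ : ∀ v, (Φ v).degree < n)
    (vs : List M) (v : M) :
    v ∈ spn F (ker2 co n bs.length Φ vs) ↔ v ∈ spn F vs ∧ Φ v = 0 := by
  have := mem_kerL (idx n bs.length)
    (fun q => (lcoeff F q.2).comp (co.comp (((lcoeff K q.1).restrictScalars F).comp Φ))) vs v
  refine Iff.trans (by rfl) (this.trans (and_congr_right fun _ => ⟨fun h1 => ?_, fun h1 q _ => ?_⟩))
  · ext i
    rcases lt_or_ge i n with hi | hi
    · refine h.inj ?_
      rw [coeff_zero, map_zero]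
      ext j
      rcases lt_or_ge j bs.length with hj | hj
      · exact h1 (i, j) (mem_idx.2 ⟨hi, hj⟩)
      · exact coeff_eq_zero_of_degree_lt ((h.deg _).trans_le (by exact_mod_cast hj))
    · exact coeff_eq_zero_of_degree_lt ((hΦ v).trans_le (by exact_mod_cast hi))
  · simp [h1]

theorem Pres.finite (h : Pres bs co) : Module.Finite F K :=
  ⟨Submodule.fg_def.2 ⟨_, List.finite_toSet bs, eq_top_iff.2 fun x _ => h.top x⟩⟩

theorem Pres.finrank_le (h : Pres bs co) : Module.finrank F K ≤ bs.length := by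
  classical
  have h1 : Submodule.span F (bs.toFinset : Set K) = ⊤ := by
    rw [List.coe_toFinset]
    exact eq_top_iff.2 fun x _ => h.top x
  rw [← finrank_top, ← h1]
  exact (finrank_span_finset_le_card _).trans (List.toFinset_card_le _)

/-- generators over `F` of the polynomials of degree less than `n` over `K` -/
noncomputable def gens (bs : List K) (n : ℕ) : List K[X] :=
  (List.range n).flatMap fun i => bs.map fun b => monomial i b

theorem Pres.mem_gens (h : Pres bs co) (n : ℕ) (v : K[X]) :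
    v ∈ spn F (gens bs n) ↔ v.degree < n := by
  constructor
  · intro hv
    have : spn F (gens bs n) ≤ (degreeLT K n).restrictScalars F := by
      refine Submodule.span_le.2 fun w hw => ?_
      simp only [gens, Set.mem_ofPred_eq, List.mem_flatMap, List.mem_range, List.mem_map] at hw
      obtain ⟨i, hi, b, -, rfl⟩ := hw
      exact mem_degreeLT.2 ((degree_monomial_le i b).trans_lt (by exact_mod_cast hi))
    exact mem_degreeLT.1 (this hv)
  · intro hv
    rw [v.as_sum_support]
    refine sum_mem fun i hi => ?_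
    have hi' : i < n := by
      have := (le_degree_of_ne_zero (mem_support_iff.1 hi)).trans_lt hv
      exact_mod_cast this
    have : spn F bs ≤ (spn F (gens bs n)).comap ((monomial i).restrictScalars F) := by
      refine Submodule.span_le.2 fun b hb => ?_
      refine mem_spn (F := F) ?_
      simp only [gens, List.mem_flatMap, List.mem_range, List.mem_map]
      exact ⟨i, hi', b, hb, rfl⟩
    exact this (h.top _)

theorem Pres.mem_relsK (h : Pres bs co) {g : K[X]} (hg : g.Monic) (b : K[X]) (d : ℕ) (u : F[X]) :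
    u ∈ spn F (relsK co bs.length g b d) ↔ u.degree < (d + 1 : ℕ) ∧ g ∣ aeval b u := by
  have := h.mem_ker2 (((modByMonicHom g).restrictScalars F).comp
    (aeval b : F[X] →ₐ[F] K[X]).toLinearMap) (n := g.natDegree) (fun v => degree_mod_lt hg _)
    (monos F (d + 1)) u
  refine Iff.trans (by rfl) (this.trans ?_)
  rw [mem_span_monos, ← modByMonic_eq_zero_iff_dvd hg]
  rfl

theorem mk_aeval (g b : K[X]) (u : F[X]) :
    AdjoinRoot.mk g (aeval b u) = aeval (AdjoinRoot.mk g b) u :=
  (aeval_algHom_apply ((AdjoinRoot.mkₐ g).restrictScalars F) b u).symm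

theorem Pres.finrank_adj (h : Pres bs co) {g : K[X]} (hg : g.Monic) :
    Module.Finite F (AdjoinRoot g) ∧ Module.finrank F (AdjoinRoot g) ≤ g.natDegree * bs.length := by
  have := h.finite
  have := (AdjoinRoot.powerBasis hg.ne_zero).finite
  refine ⟨Module.Finite.trans K _, ?_⟩
  rw [← Module.finrank_mul_finrank F K, (AdjoinRoot.powerBasis hg.ne_zero).finrank,
    AdjoinRoot.powerBasis_dim, mul_comm]
  exact Nat.mul_le_mul_left _ h.finrank_le

/-- some member of the list of relations is not zero -/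
theorem Pres.exists_rel (h : Pres bs co) {g : K[X]} (hg : g.Monic) (b : K[X]) {d : ℕ}
    (hd : (minpoly F (AdjoinRoot.mk g b)).natDegree ≤ d) :
    ∃ u ∈ relsK co bs.length g b d, u ≠ 0 ∧ u.natDegree ≤ d ∧ g ∣ aeval b u := by
  have := (h.finrank_adj hg).1
  have hm := minpoly.monic (IsIntegral.of_finite F (AdjoinRoot.mk g b))
  have h1 := (h.mem_relsK hg b d _).2 ⟨degree_le_natDegree.trans_lt (by
    exact_mod_cast Nat.lt_succ_of_le hd), by
      rw [← AdjoinRoot.mk_eq_zero, mk_aeval]; exact minpoly.aeval F _⟩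
  obtain ⟨u, hu, hu0⟩ := exists_not_mem h1 (S := ⊥) (by
    rw [Submodule.mem_bot]; exact hm.ne_zero)
  rw [Submodule.mem_bot] at hu0
  obtain ⟨h2, h3⟩ := (h.mem_relsK hg b d _).1 (mem_spn hu)
  rw [degree_eq_natDegree hu0] at h2
  exact ⟨u, hu, hu0, Nat.le_of_lt_succ (by exact_mod_cast h2), h3⟩

end Ker

/-! ### The splitting loop over an arbitrary field -/

section Loop

variable {K : Type} [Field K]

/-- the candidates contain a zero divisor modulo every reducible polynomial -/
def CutSpec (cd : K[X] → List K[X]) : Prop :=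
  ∀ g : K[X], g.Monic → 0 < g.natDegree → ¬ Irreducible g → ∃ c ∈ cd g, Cut g c

/-- a proper monic divisor of `g`, or `1` -/
noncomputable def fdiv (cd : K[X] → List K[X]) (g : K[X]) : K[X] :=
  (((cd g).map fun c => ngcd g c).find?
    fun d => decide (0 < d.natDegree ∧ d.natDegree < g.natDegree)).getD 1

/-- one attempt to split `g` -/
noncomputable def split1 (cd : K[X] → List K[X]) (g : K[X]) : List K[X] :=
  if (fdiv cd g).natDegree = 0 then [g] else [fdiv cd g, g /ₘ fdiv cd g]

/-- the work list after `j` rounds -/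
noncomputable def work (cd : K[X] → List K[X]) (f : K[X]) (j : ℕ) : List K[X] :=
  (fun L => L.flatMap (split1 cd))^[j] (if f.natDegree = 0 then [] else [nrm f])

/-- the list of the monic irreducible factors -/
noncomputable def factor (cd : K[X] → List K[X]) (f : K[X]) : List K[X] := work cd f f.natDegree

theorem fdiv_cases (cd : K[X] → List K[X]) (g : K[X]) :
    (fdiv cd g = 1 ∧ (g ≠ 0 → ∀ c ∈ cd g, ¬ Cut g c)) ∨
      ((fdiv cd g).Monic ∧ fdiv cd g ∣ g ∧ 0 < (fdiv cd g).natDegree ∧
        (fdiv cd g).natDegree < g.natDegree) := by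
  rcases find_cases ((cd g).map fun c => ngcd g c)
    (fun d => 0 < d.natDegree ∧ d.natDegree < g.natDegree) 1 with ⟨h1, h2⟩ | ⟨h1, h2⟩
  · exact Or.inl ⟨h1, fun hg c hc hcut => h2 _ (List.mem_map_of_mem hc) (hcut.ngcd hg)⟩
  · change fdiv cd g ∈ _ at h1
    change 0 < (fdiv cd g).natDegree ∧ (fdiv cd g).natDegree < _ at h2
    obtain ⟨c, -, hc⟩ := List.mem_map.1 h1
    rw [← hc] at h2 ⊢
    exact Or.inr ⟨ngcd_monic h2.1, ngcd_dvd g c, h2⟩

theorem split1_spec (cd : K[X] → List K[X]) {g : K[X]} (hg : g.Monic) (h0 : 0 < g.natDegree) :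
    (split1 cd g).prod = g ∧ (∀ d ∈ split1 cd g, d.Monic ∧ 0 < d.natDegree) ∧
      1 ≤ (split1 cd g).length ∧ (Irreducible g → split1 cd g = [g]) ∧
      (CutSpec cd → ¬ Irreducible g → 2 ≤ (split1 cd g).length) := by
  unfold split1
  rcases fdiv_cases cd g with ⟨h1, h2⟩ | ⟨h1, h2, h3, h4⟩
  · rw [if_pos (by rw [h1, natDegree_one])]
    refine ⟨by simp, by simp [hg, h0], le_rfl, fun _ => rfl, fun hsp hirr => ?_⟩
    obtain ⟨c, hc, hc'⟩ := hsp g hg h0 hirr
    exact absurd hc' (h2 hg.ne_zero c hc)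
  · rw [if_neg h3.ne']
    have h5 : fdiv cd g * (g /ₘ fdiv cd g) = g := by
      have := modByMonic_add_div g (fdiv cd g)
      rwa [(modByMonic_eq_zero_iff_dvd h1).2 h2, zero_add] at this
    refine ⟨by simpa using h5, ?_, by simp, fun hirr => ?_, fun _ _ => le_rfl⟩
    · intro d hd
      rcases List.mem_pair.1 hd with rfl | rfl
      · exact ⟨h1, h3⟩
      · refine ⟨h1.of_mul_monic_left (h5.symm ▸ hg), ?_⟩
        rw [natDegree_divByMonic g h1]
        omega
    · exfalso
      rcases hirr.isUnit_or_isUnit h5.symm with h | h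
      · exact h3.ne' (natDegree_eq_zero_of_isUnit h)
      · have := natDegree_eq_zero_of_isUnit h
        rw [natDegree_divByMonic g h1] at this
        omega

theorem round_spec (cd : K[X] → List K[X]) {L : List K[X]}
    (h : ∀ d ∈ L, d.Monic ∧ 0 < d.natDegree) :
    (L.flatMap (split1 cd)).prod = L.prod ∧
      (∀ d ∈ L.flatMap (split1 cd), d.Monic ∧ 0 < d.natDegree) ∧
      L.length ≤ (L.flatMap (split1 cd)).length ∧
      ((∀ d ∈ L, Irreducible d) → L.flatMap (split1 cd) = L) ∧
      (CutSpec cd → (∃ d ∈ L, ¬ Irreducible d) → L.length < (L.flatMap (split1 cd)).length) := by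
  induction L with
  | nil => simp
  | cons g L ih =>
    obtain ⟨h1, h2, h3, h4, h5⟩ := ih fun d hd => h d (List.mem_cons_of_mem _ hd)
    obtain ⟨k1, k2, k3, k4, k5⟩ :=
      split1_spec cd (h g List.mem_cons_self).1 (h g List.mem_cons_self).2
    rw [List.flatMap_cons, List.prod_append, List.length_append, List.length_cons, List.prod_cons,
      h1, k1]
    refine ⟨rfl, fun d hd => ?_, by omega, fun hi => ?_, fun hsp hd => ?_⟩
    · rcases List.mem_append.1 hd with hd | hd
      · exact k2 d hd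
      · exact h2 d hd
    · rw [k4 (hi g List.mem_cons_self), h4 fun d hd => hi d (List.mem_cons_of_mem _ hd)]
      rfl
    · obtain ⟨d, hd, hd'⟩ := hd
      rcases List.mem_cons.1 hd with rfl | hd
      · have := k5 hsp hd'
        omega
      · have := h5 hsp ⟨d, hd, hd'⟩
        omega

theorem work_succ (cd : K[X] → List K[X]) (f : K[X]) (j : ℕ) :
    work cd f (j + 1) = (work cd f j).flatMap (split1 cd) := Function.iterate_succ_apply' _ _ _

theorem work_inv (cd : K[X] → List K[X]) (f : K[X]) (j : ℕ) :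
    (∀ d ∈ work cd f j, d.Monic ∧ 0 < d.natDegree) ∧
      (work cd f j).prod = if f.natDegree = 0 then 1 else nrm f := by
  induction j with
  | zero =>
    change (∀ d ∈ (if f.natDegree = 0 then [] else [nrm f]), _) ∧
      (if f.natDegree = 0 then [] else [nrm f]).prod = _
    split_ifs with h
    · simp
    · have h0 : f ≠ 0 := by rintro rfl; simp at h
      simp [nrm_monic h0, natDegree_nrm, Nat.pos_of_ne_zero h]
  | succ j ih =>
    obtain ⟨h1, h2, -⟩ := round_spec cd ih.1
    rw [work_succ, h1]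
    exact ⟨h2, ih.2⟩

theorem work_bound (cd : K[X] → List K[X]) (f : K[X]) (j : ℕ) :
    (work cd f j).length ≤ f.natDegree ∧ ∀ d ∈ work cd f j, d.natDegree ≤ f.natDegree := by
  have : (work cd f j).prod.natDegree = f.natDegree := by
    rw [(work_inv cd f j).2]
    split_ifs with h
    · rw [natDegree_one, h]
    · exact natDegree_nrm f
  rw [← this]
  exact (length_le_natDegree (work_inv cd f j).1).2

/-- `L` is a list of monic irreducible polynomials with product `f` up to the leading coefficient -/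
def IsFac (f : K[X]) (L : List K[X]) : Prop :=
  C f.leadingCoeff * L.prod = f ∧ ∀ g ∈ L, g.Monic ∧ Irreducible g

theorem factor_spec {cd : K[X] → List K[X]} (hsp : CutSpec cd) (f : K[X]) :
    IsFac f (factor cd f) := by
  constructor
  · rw [factor, (work_inv cd f _).2]
    split_ifs with h
    · rw [mul_one, leadingCoeff, h, ← eq_C_of_natDegree_eq_zero h]
    · exact C_mul_nrm f
  have key : ∀ j, (∀ d ∈ work cd f j, Irreducible d) ∨ j < (work cd f j).length := fun j => by
    induction j with
    | zero =>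
      rcases h : work cd f 0 with _ | ⟨g, L⟩
      · simp
      · simp
    | succ j ih =>
      obtain ⟨-, -, -, h4, h5⟩ := round_spec cd (work_inv cd f j).1
      rw [work_succ]
      by_cases h : ∀ d ∈ work cd f j, Irreducible d
      · rw [h4 h]
        exact Or.inl h
      · push Not at h
        have := h5 hsp h
        obtain ⟨d, hd, hd'⟩ := h
        rcases ih with ih | ih
        · exact absurd (ih d hd) hd'
        · exact Or.inr (by omega)
  intro d hd
  refine ⟨((work_inv cd f _).1 d hd).1, ?_⟩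
  rcases key f.natDegree with h | h
  · exact h d hd
  · exact absurd (work_bound cd f _).1 h.not_ge

end Loop

/-! ### The Berlekamp algebra over the prime field -/

section Berl

variable {p : ℕ} [Fact p.Prime] {K : Type} [Field K] [Algebra (ZMod p) K]

/-- a spanning list of the Berlekamp algebra over the prime field -/
noncomputable def berlK (bs : List K) (co : K → (ZMod p)[X]) (g : K[X]) : List K[X] :=
  ker2 co g.natDegree bs.length (fun v => pmod g v p - v %ₘ g) (gens bs g.natDegree)

/-- the candidates for zero divisors modulo `g` -/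
noncomputable def candK (fac : (ZMod p)[X] → List (ZMod p)[X]) (bs : List K)
    (co : K → (ZMod p)[X]) (g : K[X]) : List K[X] :=
  ((List.range (g.natDegree * bs.length)).map fun j => pmod g X (p ^ (j + 1)) - X) ++
    (berlK bs co g).flatMap fun b =>
      (relsK co bs.length g b (g.natDegree * bs.length)).flatMap fun u =>
        (fac u).map fun c => aeval b c

variable {bs : List K} {co : K →ₗ[ZMod p] (ZMod p)[X]}

omit [Fact p.Prime] in
theorem charP_of_alg (p : ℕ) [Fact p.Prime] (K : Type) [Field K] [Algebra (ZMod p) K] :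
    CharP K p := charP_of_injective_algebraMap (algebraMap (ZMod p) K).injective p

theorem Pres.mem_berlK (h : Pres bs co) {g : K[X]} (hg : g.Monic) (v : K[X]) :
    v ∈ spn (ZMod p) (berlK bs co g) ↔ v.degree < g.natDegree ∧ g ∣ v ^ p - v := by
  have := charP_of_alg p K
  let Φ : K[X] →ₗ[ZMod p] K[X] :=
    { toFun := fun v => (v ^ p - v) %ₘ g
      map_add' := fun v w => by rw [add_pow_char, add_sub_add_comm, add_modByMonic]
      map_smul' := fun c v => by
        rw [_root_.smul_pow, ZMod.pow_card, ← smul_sub, RingHom.id_apply,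
          ← algebraMap_smul K c, smul_modByMonic, algebraMap_smul] }
  have e : berlK bs co g = ker2 co g.natDegree bs.length Φ (gens bs g.natDegree) := by
    unfold berlK
    congr 1
    funext v
    rw [pmod_eq hg, ← sub_modByMonic]
    rfl
  rw [e, h.mem_ker2 Φ (fun v => degree_mod_lt hg _), h.mem_gens, ← modByMonic_eq_zero_iff_dvd hg]
  rfl

theorem Pres.exists_berl (h : Pres bs co) {g a b : K[X]} (hg : g.Monic) (hab : g = a * b)
    (ha : ¬ IsUnit a) (hb : ¬ IsUnit b) (hc : IsCoprime a b) :
    ∃ v ∈ berlK bs co g, v.degree < g.natDegree ∧ g ∣ v ^ p - v ∧ ¬ v.degree < (1 : ℕ) := by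
  obtain ⟨u, w, h1⟩ := hc
  have h2 : g ∣ u * a %ₘ g - u * a := dvd_modByMonic_sub _ _
  have h3 : u * a %ₘ g ∈ spn (ZMod p) (berlK bs co g) := by
    refine (h.mem_berlK hg _).2 ⟨degree_mod_lt hg _, ?_⟩
    rw [← AdjoinRoot.mk_eq_mk, map_pow, AdjoinRoot.mk_eq_mk.2 h2]
    have : IsIdempotentElem (AdjoinRoot.mk g (u * a)) := by
      rw [IsIdempotentElem, ← map_mul, AdjoinRoot.mk_eq_mk]
      exact ⟨-(u * w), by rw [hab]; linear_combination (u * a) * h1⟩
    exact this.pow_eq (Fact.out : p.Prime).ne_zero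
  obtain ⟨v, hv, hv1⟩ := exists_not_mem h3 (S := (degreeLT K 1).restrictScalars (ZMod p)) (by
    rw [Submodule.restrictScalars_mem, mem_degreeLT]
    intro h4
    have h5 := eq_C_of_degree_le_zero (p := u * a %ₘ g) (Nat.WithBot.lt_one_iff_le_zero.1 h4)
    rw [h5] at h2
    set c := (u * a %ₘ g).coeff 0
    have h6 : a ∣ C c := (dvd_sub_left (dvd_mul_left a u)).1 ((Dvd.intro _ hab.symm).trans h2)
    have h7 : b ∣ C (c - 1) := by
      have : C (c - 1) = C c - u * a - w * b := by rw [map_sub, C_1, ← h1]; ring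
      rw [this]
      exact dvd_sub ((Dvd.intro_left _ hab.symm).trans h2) (dvd_mul_left b w)
    by_cases hc : c = 0
    · rw [hc, zero_sub] at h7
      exact hb (isUnit_of_dvd_unit h7 (isUnit_C.2 isUnit_one.neg))
    · exact ha (isUnit_of_dvd_unit h6 (isUnit_C.2 (IsUnit.mk0 c hc))))
  obtain ⟨h4, h5⟩ := (h.mem_berlK hg v).1 (mem_spn hv)
  exact ⟨v, hv, h4, h5, by rwa [Submodule.restrictScalars_mem, mem_degreeLT] at hv1⟩

theorem cut_of_rel {g v : K[X]} (h0 : 0 < g.natDegree) (h1 : v.degree < g.natDegree)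
    (h2 : g ∣ v ^ p - v) (h3 : ¬ v.degree < (1 : ℕ)) {u : (ZMod p)[X]} {L : List (ZMod p)[X]}
    (hu : u ≠ 0) (hL : IsFac u L) (h4 : g ∣ aeval v u) : ∃ c ∈ L, Cut g (aeval v c) := by
  have hg : ¬ IsUnit g := not_isUnit_of_natDegree_pos g h0
  have hg0 : g ≠ 0 := by rintro rfl; simp at h0
  by_contra hc
  push Not at hc
  by_cases h5 : ∀ c ∈ L, IsCoprime g (aeval v c)
  · have h6 : ∀ L' : List (ZMod p)[X], (∀ c ∈ L', IsCoprime g (aeval v c)) →
        IsCoprime g (aeval v L'.prod) := fun L' => by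
      induction L' with
      | nil => intro _; simpa using isCoprime_one_right
      | cons c L' ih =>
        intro h7
        rw [List.prod_cons, map_mul]
        exact (h7 c List.mem_cons_self).mul_right (ih fun d hd => h7 d (List.mem_cons_of_mem _ hd))
    rw [← hL.1, map_mul] at h4
    have h7 : IsUnit (aeval v (C u.leadingCoeff)) :=
      (isUnit_C.2 (IsUnit.mk0 _ (leadingCoeff_ne_zero.2 hu))).map _
    exact hg ((h6 L h5).isUnit_of_dvd (h7.dvd_mul_left.1 h4))
  push Not at h5
  obtain ⟨c, hcL, h5⟩ := h5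
  have h6 : g ∣ aeval v c := by_contra fun h6 => hc c hcL ⟨h6, h5⟩
  obtain ⟨hm, hi⟩ := hL.2 c hcL
  rcases hi.isCoprime_or_dvd (X ^ p - X) with h7 | h7
  · obtain ⟨a, b, h8⟩ := h7
    have h9 := congrArg (aeval v) h8
    rw [map_add, map_mul, map_mul, map_sub, map_pow, aeval_X, map_one] at h9
    exact hg (isUnit_of_dvd_one (h9 ▸ dvd_add (h6.mul_left _) (h2.mul_left _)))
  · have h8 : c.natDegree = 1 := by
      rw [← Nat.dvd_one, hi.natDegree_dvd_iff_dvd_X_pow_card_pow_sub_X, Nat.card_zmod, pow_one]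
      exact h7
    rw [hm.eq_X_add_C h8, map_add, aeval_X, aeval_C, Polynomial.algebraMap_apply] at h6
    have h9 := eq_zero_of_dvd_of_degree_lt h6 (by
      rw [degree_eq_natDegree hg0]
      exact (degree_add_le _ _).trans_lt (max_lt h1 (degree_C_le.trans_lt (by exact_mod_cast h0))))
    rw [add_eq_zero_iff_eq_neg] at h9
    exact h3 (by rw [h9, degree_neg]; exact degree_C_le.trans_lt (by simp))

theorem Pres.card (h : Pres bs co) :
    Finite K ∧ Nat.card K = p ^ Module.finrank (ZMod p) K ∧ 0 < Module.finrank (ZMod p) K := by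
  have := h.finite
  have h1 : Finite K := Module.finite_of_finite (ZMod p)
  exact ⟨h1, by rw [Module.natCard_eq_pow_finrank (K := ZMod p), Nat.card_zmod],
    Module.finrank_pos⟩

theorem Pres.cutSpec (h : Pres bs co) {fac : (ZMod p)[X] → List (ZMod p)[X]}
    (hf : ∀ u, IsFac u (fac u)) : CutSpec (candK fac bs co) := by
  intro g hg h0 hirr
  by_cases hsq : Squarefree g
  · obtain ⟨a, b, hab, ha, hb⟩ : ∃ a b, g = a * b ∧ ¬ IsUnit a ∧ ¬ IsUnit b := by
      by_contra h
      push Not at h
      refine hirr ⟨not_isUnit_of_natDegree_pos g h0, fun a b hab => ?_⟩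
      by_cases ha : IsUnit a
      · exact Or.inl ha
      · exact Or.inr (h a b hab ha)
    obtain ⟨v, hv, h1, h2, h3⟩ := h.exists_berl hg hab ha hb
      (IsRelPrime.of_squarefree_mul (hab ▸ hsq)).isCoprime
    obtain ⟨k1, k2⟩ := h.finrank_adj hg
    obtain ⟨u, hu, hu0, -, hu1⟩ := h.exists_rel hg v ((minpoly.natDegree_le (A := ZMod p) _).trans k2)
    obtain ⟨c, hc, hc'⟩ := cut_of_rel h0 h1 h2 h3 hu0 (hf u) hu1
    refine ⟨_, List.mem_append_right _ ?_, hc'⟩
    simp only [List.mem_flatMap, List.mem_map]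
    exact ⟨v, hv, u, hu, c, hc, rfl⟩
  · rw [squarefree_iff_irreducible_sq_not_dvd_of_ne_zero hg.ne_zero] at hsq
    push Not at hsq
    obtain ⟨r, hh, hhg⟩ := hsq
    obtain ⟨k1, k2, k3⟩ := h.card
    have := charP_of_alg p K
    have hd0 := hh.natDegree_pos
    have hd1 : r.natDegree ≤ g.natDegree :=
      natDegree_le_of_dvd ((dvd_mul_right r r).trans hhg) hg.ne_zero
    set j := Module.finrank (ZMod p) K * r.natDegree with hj
    have hj0 : 0 < j := Nat.mul_pos k3 hd0
    have hj1 : j ≤ g.natDegree * bs.length := by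
      rw [hj, mul_comm]; exact Nat.mul_le_mul hd1 h.finrank_le
    have h1 : r ∣ X ^ p ^ j - X := by
      have := hh.natDegree_dvd_iff_dvd_X_pow_card_pow_sub_X.1 (dvd_refl _)
      rwa [k2, ← pow_mul] at this
    have h2 : Cut g (X ^ p ^ j - X) := by
      refine ⟨fun h2 => hh.not_isUnit ?_, fun h2 => hh.not_isUnit ?_⟩
      · exact (galois_poly_separable p _ (dvd_pow_self p hj0.ne')).squarefree r (hhg.trans h2)
      · exact h2.isUnit_of_dvd' ((dvd_mul_right r r).trans hhg) h1
    refine ⟨pmod g X (p ^ j) - X, List.mem_append_left _ ?_, h2.congr ?_⟩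
    · refine List.mem_map.2 ⟨j - 1, List.mem_range.2 (by omega), ?_⟩
      rw [Nat.sub_add_cancel hj0]
    · rw [pmod_eq hg, sub_sub_sub_cancel_right]
      exact dvd_modByMonic_sub _ _

end Berl

/-! ### Polynomial time -/

section PT

variable {α : Type} [Enc α]

section Ker

variable {F M : α → Type} [∀ a, Field (F a)] [∀ a, Code (F a)] [∀ a, CommRing (M a)]
  [∀ a, Code (M a)] [∀ a, Algebra (F a) (M a)]

theorem ht_elim_le {F M : Type} [Field F] [CommRing M] [Code M] [Algebra F M] [HtAlg F M]
    (l : M → F) (vs : List M) : ht (elim l vs) ≤ ht vs := by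
  refine ht_map_le (length_le_ht vs) fun v hv => ht_sub_le_of (ht_le_of_mem hv) ?_
  refine (ht_mul_le _ _).trans ?_
  rw [ht_algebraMap, zero_add]
  rcases piv_cases l vs with h | h
  · exact ht_le_of_mem h.1
  · rw [h.1, ht_zero]
    exact Nat.zero_le _

theorem dpt_elim {l : ∀ a, M a → F a} {vs : ∀ a, List (M a)} (hF : PTField F) (hM : PTRing M)
    (hA : PTAlg F M) (hl : DPT (fun q : Σ a, M a => l q.1 q.2)) (hvs : DPT vs) :
    DPT (fun a => elim (l a) (vs a)) := by
  have hl' := DPT.fn l hl
  have h1 : DPT (fun a => piv (l a) (vs a)) := by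
    unfold piv
    fun_prop
  have h2 : DPT (fun a => (l a (piv (l a) (vs a)))⁻¹) := DPT.inv hF (hl' DPT.id h1)
  refine DPT.map hvs (DPT.sub (by fun_prop) (by fun_prop) (DPT.mul (by fun_prop)
    (DPT.algebraMap (hA.comp DPT.id.sfst) (DPT.mul (hF.comp DPT.id.sfst).ring
      (hl' DPT.id.sfst DPT.ssnd.val) (h2.comp DPT.id.sfst))) (h1.comp DPT.id.sfst)))

theorem dpt_kerL [∀ a, HtAlg (F a) (M a)] {ι : α → Type} [∀ a, Enc (ι a)] {is : ∀ a, List (ι a)}
    {l : ∀ a, ι a → M a → F a} {vs : ∀ a, List (M a)} (hF : PTField F) (hM : PTRing M)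
    (hA : PTAlg F M) (his : DPT is) (hl : DPT (fun q : Σ a, ι a × M a => l q.1 q.2.1 q.2.2))
    (hvs : DPT vs) : DPT (fun a => kerL (is a) (l a) (vs a)) := by
  have hl' := DPT.fn2 l hl
  refine DPT.foldl_inv (by fun_prop) his hvs ?_ (b := fun a => ht (vs a))
    (by fun_prop) (fun _ => le_rfl) fun _ _ _ _ hu => (ht_elim_le _ _).trans hu
  exact dpt_elim (by fun_prop) (by fun_prop) (hA.comp DPT.id.sfst) (by fun_prop) (by fun_prop)

@[fun_prop]
theorem dpt_idx {n m : α → ℕ} (hn : DPT n) (hn' : PBd n) (hm : DPT m) (hm' : PBd m) :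
    DPT (fun a => idx (n a) (m a)) := by
  unfold idx
  fun_prop

variable {K : α → Type} [∀ a, CommRing (K a)] [∀ a, Code (K a)]

theorem dpt_ker2 [∀ a, HtAlg (F a) (M a)] {co : ∀ a, K a → (F a)[X]} {n m : α → ℕ}
    {Φ : ∀ a, M a → (K a)[X]} {vs : ∀ a, List (M a)} (hF : PTField F) (hM : PTRing M)
    (hA : PTAlg F M) (hK : PTRing K) (hco : DPT (fun q : Σ a, K a => co q.1 q.2)) (hn : DPT n)
    (hn' : PBd n) (hm : DPT m) (hm' : PBd m) (hΦ : DPT (fun q : Σ a, M a => Φ q.1 q.2))
    (hvs : DPT vs) : DPT (fun a => ker2 (co a) (n a) (m a) (Φ a) (vs a)) := by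
  have hco' := DPT.fn co hco
  have hΦ' := DPT.fn Φ hΦ
  exact dpt_kerL (ι := fun _ => ℕ × ℕ) hF hM hA (by fun_prop) (by fun_prop) hvs

theorem dpt_relsK [∀ a, HtZero (F a)] [∀ a, Algebra (F a) (K a)] {co : ∀ a, K a → (F a)[X]}
    {m d : α → ℕ} {g b : ∀ a, (K a)[X]} (hF : PTField F) (hK : PTRing K) (hA : PTAlg F K)
    (hco : DPT (fun q : Σ a, K a => co q.1 q.2)) (hm : DPT m) (hm' : PBd m) (hg : DPT g)
    (hb : DPT b) (hd : DPT d) (hd' : PBd d) :
    DPT (fun a => relsK (co a) (m a) (g a) (b a) (d a)) := by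
  have h1 : PTAlg F (fun a => (K a)[X]) := PTAlg.poly hK hA
  refine dpt_ker2 hF (by fun_prop) (PTAlg.poly hF.ring (PTAlg.self hF.ring)) hK hco (by fun_prop) (by fun_prop) hm hm' ?_
    (by fun_prop)
  refine DPT.modByMonic (by fun_prop) (DPT.aeval (by fun_prop) (by fun_prop) ?_ (by fun_prop)
    (by fun_prop)) (by fun_prop)
  exact (h1.comp DPT.id.sfst).map

end Ker

section Loop

variable {K : α → Type} [∀ a, Field (K a)] [∀ a, Code (K a)]

@[fun_prop]
theorem dpt_gens {bs : ∀ a, List (K a)} {n : α → ℕ} (hK : PTField K) (hbs : DPT bs) (hn : DPT n)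
    (hn' : PBd n) : DPT (fun a => gens (bs a) (n a)) := by
  unfold gens
  fun_prop

variable [∀ a, HtZero (K a)] {cd : ∀ a, (K a)[X] → List (K a)[X]}

theorem dpt_factor {f : ∀ a, (K a)[X]} (hK : PTField K)
    (hcd : DPT (fun q : Σ a, (K a)[X] => cd q.1 q.2)) (hf : DPT f) :
    DPT (fun a => factor (cd a) (f a)) := by
  have h0 : DPT (fun q : Σ a, (K a)[X] => fdiv (cd q.1) q.2) := by
    unfold fdiv
    fun_prop
  have h1 : DPT (fun q : Σ a, (K a)[X] => split1 (cd q.1) q.2) := by
    unfold split1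
    fun_prop
  have h2 := DPT.fn (fun a g => split1 (cd a) g) h1
  refine DPT.iterate_ht (by fun_prop) (by fun_prop) (by fun_prop) (by fun_prop) (by fun_prop)
    (b := fun a => (f a).natDegree) (by fun_prop) fun a j _ => ?_
  obtain ⟨k1, k2⟩ := work_bound (cd a) (f a) j
  exact ht_list_le.2 ⟨k1, fun d hd => by rw [ht_poly_eq]; exact k2 d hd⟩

end Loop

variable {p : α → ℕ} [∀ a, Fact (p a).Prime] {K : α → Type} [∀ a, Field (K a)] [∀ a, Code (K a)]
  [∀ a, HtZero (K a)] [∀ a, Algebra (ZMod (p a)) (K a)]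

theorem dpt_candK {fac : ∀ a, (ZMod (p a))[X] → List (ZMod (p a))[X]} {bs : ∀ a, List (K a)}
    {co : ∀ a, K a → (ZMod (p a))[X]} {g : ∀ a, (K a)[X]} (hp : DPT p) (hK : PTField K)
    (hA : PTAlg (fun a => ZMod (p a)) K) (hfac : DPT (fun q : Σ a, (ZMod (p a))[X] => fac q.1 q.2))
    (hbs : DPT bs) (hco : DPT (fun q : Σ a, K a => co q.1 q.2)) (hg : DPT g) :
    DPT (fun a => candK (fac a) (bs a) (co a) (g a)) := by
  have hfac' := DPT.fn fac hfac
  have hco' := DPT.fn co hco
  have h0 : PTAlg (fun a => ZMod (p a)) (fun a => (K a)[X]) := PTAlg.poly hK.ring hA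
  have h1 : DPT (fun a => berlK (bs a) (co a) (g a)) :=
    dpt_ker2 (by fun_prop) (by fun_prop) h0 hK.ring hco (by fun_prop) (by fun_prop) (by fun_prop)
      (by fun_prop) (by fun_prop) (by fun_prop)
  have h2 : DPT (fun q : Σ a, (K a)[X] =>
      relsK (co q.1) (bs q.1).length (g q.1) q.2 ((g q.1).natDegree * (bs q.1).length)) :=
    dpt_relsK (by fun_prop) (by fun_prop) (hA.comp DPT.id.sfst) (by fun_prop) (by fun_prop)
      (by fun_prop) (by fun_prop) (by fun_prop) (by fun_prop) (by fun_prop)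
  have h2' := DPT.fn (fun a b => relsK (co a) (bs a).length (g a) b ((g a).natDegree * (bs a).length))
    h2
  have h3 : DPT (fun q : Σ a, (K a)[X] × (ZMod (p a))[X] => aeval q.2.1 q.2.2) :=
    DPT.aeval (by fun_prop) (by fun_prop) (h0.comp DPT.id.sfst).map (by fun_prop) (by fun_prop)
  have h3' := DPT.fn2 (fun a (b : (K a)[X]) (c : (ZMod (p a))[X]) => aeval b c) h3
  unfold candK
  fun_prop

end PT

end Vale.Agent.N319
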