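import Vale.Agent.N319.Berl
import Vale.Agent.P319.Main

/-!
The polynomial time factorization algorithm over prime fields, as a function on pairs.
-/

open Polynomial

namespace Vale.Agent.N319

open Vale.Agent.Lib.PolyTime hiding C P
open Vale.Agent.Lib.Dep Vale.Agent.P319 Vale.Agent.P319.Alg

theorem exists_fac_of_curve (c0 : ℕ)
    (cv : ∀ q : Pr, ℕ → (ZMod q.1)[X] → (ZMod q.1)[X] → (ZMod q.1)[X] → List (ZMod q.1)[X])
    (hcv : ∀ q, CurveSpec c0 (cv q))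
    (hD : DPT (fun x : Σ q : Pr, (ZMod q.1)[X] × (ZMod q.1)[X] × (ZMod q.1)[X] =>
      cv x.1 x.2.2.2.natDegree.minFac x.2.1 x.2.2.1 x.2.2.2)) :
    ∃ fac : ∀ q : Pr, (ZMod q.1)[X] → List (ZMod q.1)[X],
      DPT (fun x : Σ q : Pr, (ZMod q.1)[X] => fac x.1 x.2) ∧ ∀ q u, IsFac u (fac q u) := by
  obtain ⟨c, hc⟩ := exists_ellOk NT.smallPrime
  refine ⟨fun q f => factorAll c (splitR c0 (cv q)) f, ?_, fun q u =>
    factorAll_spec hc (splitR_spec (hcv q)) u⟩
  have h1 := DPT.fn3 (fun (q : Pr) h g m => cv q m.natDegree.minFac h g m) hD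
  refine dpt_factorAll c (by fun_prop) ?_ (by fun_prop)
  exact dpt_splitR c0 (by fun_prop) (by fun_prop) (by fun_prop) (by fun_prop)

theorem exists_facP : ∃ fac : ∀ q : Pr, (ZMod q.1)[X] → List (ZMod q.1)[X],
    DPT (fun x : Σ q : Pr, (ZMod q.1)[X] => fac x.1 x.2) ∧ ∀ q u, IsFac u (fac q u) :=
  exists_fac_of_curve 1 (fun q => Crv.curveP q.1) (fun _ => Crv.curveP_spec Crv.curveSt)
    Crv.dpt_curveP_prime

end Vale.Agent.N319
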