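import Vale.Agent.N319.FacP

/-!
Families of finite fields with polynomial time arithmetic: prime fields, simple extensions and
fields given by the multiplication table of a basis. Polynomials over them are factored in
polynomial time.
-/

open Polynomial

namespace Vale.Agent.N319

open Vale.Agent.Lib.PolyTime hiding C P
open Vale.Agent.Lib.Dep Vale.Agent.P319 Vale.Agent.P319.Alg

/-! ### The algorithm for prime fields -/

/-- the list of the monic irreducible factors over the prime field -/
noncomputable def facP (p : ℕ) [Fact p.Prime] : (ZMod p)[X] → List (ZMod p)[X] :=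
  exists_facP.choose ⟨p, Fact.out⟩

theorem facP_spec {p : ℕ} [Fact p.Prime] (u : (ZMod p)[X]) : IsFac u (facP p u) :=
  exists_facP.choose_spec.2 ⟨p, Fact.out⟩ u

variable {α : Type} [Enc α] {p : α → ℕ} [∀ a, Fact (p a).Prime]

@[fun_prop]
theorem dpt_facP {u : ∀ a, (ZMod (p a))[X]} (hp : DPT p) (hu : DPT u) :
    DPT (fun a => facP (p a) (u a)) :=
  DPT.comp (f := fun a => (⟨⟨p a, Fact.out⟩, u a⟩ : Σ q : Pr, (ZMod q.1)[X]))
    exists_facP.choose_spec.1 (DPT.smk (DPT.subMk hp) hu)

/-- the list of the monic irreducible factors over a finite field -/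
noncomputable def facK {p : ℕ} [Fact p.Prime] {K : Type} [Field K] [Algebra (ZMod p) K]
    (bs : List K) (co : K → (ZMod p)[X]) : K[X] → List K[X] := factor (candK (facP p) bs co)

theorem Pres.facK_spec {p : ℕ} [Fact p.Prime] {K : Type} [Field K] [Algebra (ZMod p) K]
    {bs : List K} {co : K →ₗ[ZMod p] (ZMod p)[X]} (h : Pres bs co) (f : K[X]) :
    IsFac f (facK bs co f) := factor_spec (h.cutSpec facP_spec) f

/-! ### Families -/

/-- a family of finite fields with a basis over the prime field and coordinates -/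
structure Fam (p : α → ℕ) [∀ a, Fact (p a).Prime] (K : α → Type) [∀ a, Field (K a)]
    [∀ a, Code (K a)] [∀ a, Algebra (ZMod (p a)) (K a)] (bs : ∀ a, List (K a))
    (co : ∀ a, K a →ₗ[ZMod (p a)] (ZMod (p a))[X]) : Prop where
  hp : DPT p
  ring : PTRing K
  alg : PTAlg (fun a => ZMod (p a)) K
  hbs : DPT bs
  hco : DPT (fun q : Σ a, K a => co q.1 q.2)
  pres : ∀ a, Pres (bs a) (co a)
  dim : ∀ a, Module.finrank (ZMod (p a)) (K a) = (bs a).length

section Fam

variable {K : α → Type} [∀ a, Field (K a)] [∀ a, Code (K a)] [∀ a, Algebra (ZMod (p a)) (K a)]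
  {bs : ∀ a, List (K a)} {co : ∀ a, K a →ₗ[ZMod (p a)] (ZMod (p a))[X]}

theorem Fam.comp {κ : Type} [Enc κ] {c : κ → α} (h : Fam p K bs co) (hc : DPT c) :
    Fam (fun x => p (c x)) (fun x => K (c x)) (fun x => bs (c x)) (fun x => co (c x)) where
  hp := h.hp.comp hc
  ring := h.ring.comp hc
  alg := h.alg.comp hc
  hbs := h.hbs.comp hc
  hco := DPT.fn (fun a x => co a x) h.hco (hc.comp DPT.id.sfst) DPT.ssnd
  pres _ := h.pres _
  dim _ := h.dim _

theorem Fam.card (h : Fam p K bs co) (a : α) :
    Finite (K a) ∧ Nat.card (K a) = p a ^ (bs a).length ∧ 0 < (bs a).length := by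
  rw [← h.dim a]
  exact (h.pres a).card

theorem inv_eq_pow {E : Type} [Field E] [Finite E] [DecidableEq E] (x : E) :
    x⁻¹ = if x = 0 then 0 else x ^ (Nat.card E - 2) := by
  split_ifs with h
  · rw [h, inv_zero]
  · have := Fintype.ofFinite E
    have h2 := Fintype.one_lt_card (α := E)
    refine inv_eq_of_mul_eq_one_right ?_
    rw [Nat.card_eq_fintype_card, ← pow_succ', show Fintype.card E - 2 + 1 = Fintype.card E - 1 by
      omega]
    exact FiniteField.pow_card_sub_one_eq_one x h

variable [∀ a, HtZero (K a)]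

theorem Fam.field (h : Fam p K bs co) : PTField K := by
  classical
  refine ⟨h.ring, ?_⟩
  have h1 := h.hp
  have h2 := h.hbs
  have h3 := h.ring
  have h4 : DPT (fun q : Σ a, K a =>
      if q.2 = 0 then 0 else q.2 ^ (p q.1 ^ (bs q.1).length - 2)) := by fun_prop
  refine h4.congr fun q => ?_
  obtain ⟨k1, k2, -⟩ := h.card q.1
  rw [inv_eq_pow, k2]

theorem Fam.dpt_facK (h : Fam p K bs co) {f : ∀ a, (K a)[X]} (hf : DPT f) :
    DPT (fun a => facK (bs a) (co a) (f a)) := by
  have h1 := h.comp (DPT.id.sfst (β := fun a => (K a)[X]))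
  exact dpt_factor h.field (dpt_candK h1.hp h1.field h1.alg
    (dpt_facP (h1.hp.comp DPT.id.sfst) DPT.ssnd) h1.hbs h1.hco DPT.ssnd) hf

end Fam

/-! ### Prime fields -/

theorem pres_self (F : Type) [Field F] : Pres [(1 : F)] (monomial (R := F) 0) where
  top x := by
    have : x = x • (1 : F) := by simp
    rw [this]
    exact Submodule.smul_mem _ _ (mem_spn List.mem_cons_self)
  inj := monomial_injective 0
  deg x := (degree_monomial_le 0 x).trans_lt (by simp)

theorem Fam.zmod (hp : DPT p) :
    Fam p (fun a => ZMod (p a)) (fun _ => [1]) (fun _ => monomial 0) where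
  hp := hp
  ring := PTRing.zmod hp
  alg := PTAlg.self (PTRing.zmod hp)
  hbs := by fun_prop
  hco := by fun_prop
  pres _ := pres_self _
  dim _ := Module.finrank_self _

/-! ### Simple extensions -/

section Adj

variable {F K : Type} [Field F] [CommRing K] [Algebra F K]

/-- coordinates on a quotient by a monic polynomial -/
noncomputable def coAdj (co : K →ₗ[F] F[X]) (m : ℕ) {g : K[X]} (hg : g.Monic) :
    AdjoinRoot g →ₗ[F] F[X] :=
  ∑ i ∈ Finset.range g.natDegree, (LinearMap.mulLeft F (X ^ (i * m))).comp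
    (co.comp (((lcoeff K i).restrictScalars F).comp
      ((AdjoinRoot.modByMonicHom hg).restrictScalars F)))

theorem coAdj_apply (co : K →ₗ[F] F[X]) (m : ℕ) {g : K[X]} (hg : g.Monic) (x : AdjoinRoot g) :
    coAdj co m hg x = ∑ i ∈ Finset.range g.natDegree, X ^ (i * m) * co ((rep x).coeff i) := by
  simp [coAdj, rep_eq hg]

theorem flat_deg {c : ℕ → F[X]} {m : ℕ} (hc : ∀ i, (c i).degree < m) (n : ℕ) :
    (∑ i ∈ Finset.range n, X ^ (i * m) * c i).degree < ((n * m : ℕ) : WithBot ℕ) := by
  refine (degree_sum_le _ _).trans_lt ((Finset.sup_lt_iff (WithBot.bot_lt_coe _)).2 fun i hi => ?_)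
  by_cases h0 : c i = 0
  · rw [h0, mul_zero, degree_zero]
    exact WithBot.bot_lt_coe _
  · have h1 := hc i
    rw [degree_eq_natDegree h0] at h1
    rw [degree_mul, degree_X_pow, degree_eq_natDegree h0]
    have h2 : (c i).natDegree < m := by exact_mod_cast h1
    have h3 : (i + 1) * m ≤ n * m := Nat.mul_le_mul_right _ (Finset.mem_range.1 hi)
    rw [add_mul] at h3
    exact_mod_cast (by omega : i * m + (c i).natDegree < n * m)

theorem flat_zero {c : ℕ → F[X]} {m : ℕ} (hc : ∀ i, (c i).degree < m) (n : ℕ)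
    (h : ∑ i ∈ Finset.range n, X ^ (i * m) * c i = 0) : ∀ i < n, c i = 0 := by
  induction n with
  | zero => simp
  | succ n ih =>
    rw [Finset.sum_range_succ, add_eq_zero_iff_eq_neg] at h
    have h1 : ∑ i ∈ Finset.range n, X ^ (i * m) * c i = 0 :=
      eq_zero_of_dvd_of_degree_lt (p := X ^ (n * m)) (by rw [h]; exact (dvd_mul_right _ _).neg_right)
        (by rw [degree_X_pow]; exact flat_deg hc n)
    intro i hi
    rcases Nat.lt_succ_iff_lt_or_eq.1 hi with hi | rfl
    · exact ih h1 i hi
    · rw [h1, eq_comm, neg_eq_zero] at h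
      exact (mul_eq_zero.1 h).resolve_left (pow_ne_zero _ X_ne_zero)

end Adj

theorem length_gens {K : Type} [Field K] (bs : List K) (n : ℕ) :
    (gens bs n).length = n * bs.length := by
  simp [gens, List.length_flatMap]

theorem Pres.adjoin {F K : Type} [Field F] [Field K] [Algebra F K] {bs : List K}
    {co : K →ₗ[F] F[X]} (h : Pres bs co) {g : K[X]} (hg : g.Monic) [Fact (Irreducible g)] :
    Pres ((gens bs g.natDegree).map (AdjoinRoot.mk g)) (coAdj co bs.length hg) where
  top x := by
    have h1 := (h.mem_gens g.natDegree (rep x)).2 (by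
      rw [← degree_eq_natDegree hg.ne_zero]; exact degree_rep_lt hg x)
    have h2 : spn F (gens bs g.natDegree) ≤ (spn F ((gens bs g.natDegree).map
        (AdjoinRoot.mk g))).comap ((AdjoinRoot.mkₐ g).restrictScalars F).toLinearMap :=
      Submodule.span_le.2 fun v hv => mem_spn (F := F) (List.mem_map_of_mem hv)
    have h3 := h2 h1
    rw [← mk_rep x]
    exact h3
  inj := by
    rw [injective_iff_map_eq_zero]
    intro x hx
    rw [coAdj_apply] at hx
    have h1 := flat_zero (fun i => h.deg _) _ hx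
    have h2 : rep x = 0 := by
      ext i
      rcases lt_or_ge i g.natDegree with hi | hi
      · exact h.inj (by rw [h1 i hi, coeff_zero, map_zero])
      · refine coeff_eq_zero_of_degree_lt ((degree_rep_lt hg x).trans_le ?_)
        rw [degree_eq_natDegree hg.ne_zero]
        exact_mod_cast hi
    rw [← mk_rep x, h2, map_zero]
  deg x := by
    rw [coAdj_apply, List.length_map, length_gens]
    exact flat_deg (fun i => h.deg _) _

theorem dpt_coAdj {F K : α → Type} [∀ a, Field (F a)] [∀ a, Code (F a)] [∀ a, CommRing (K a)]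
    [∀ a, Code (K a)] [∀ a, Algebra (F a) (K a)] {co : ∀ a, K a →ₗ[F a] (F a)[X]} {m : α → ℕ}
    {g : ∀ a, (K a)[X]} (hm : ∀ a, (g a).Monic) (hF : PTRing F) (hK : PTRing K)
    (hco : DPT (fun q : Σ a, K a => co q.1 q.2)) (h1 : DPT m) (h2 : PBd m) (hg : DPT g) :
    DPT (fun q : Σ a, AdjoinRoot (g a) => coAdj (co q.1) (m q.1) (hm q.1) q.2) := by
  have h3 : DPT (fun q : Σ q : (Σ a, AdjoinRoot (g a)), {i // i ∈ List.range (g q.1).natDegree} =>
      co q.1.1 ((rep q.1.2).coeff q.2.1)) :=
    DPT.fn (fun a x => co a x) hco DPT.id.sfst.sfst (by fun_prop)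
  refine DPT.congr ?_ fun q => (coAdj_apply _ _ _ _).symm
  exact DPT.sum_range (by fun_prop) (by fun_prop) (by fun_prop)
    (DPT.mul (by fun_prop) (by fun_prop) h3)

theorem Fam.adjoin {K : α → Type} [∀ a, Field (K a)] [∀ a, Code (K a)] [∀ a, HtZero (K a)]
    [∀ a, Algebra (ZMod (p a)) (K a)] {bs : ∀ a, List (K a)}
    {co : ∀ a, K a →ₗ[ZMod (p a)] (ZMod (p a))[X]} (h : Fam p K bs co) {g : ∀ a, (K a)[X]}
    (hm : ∀ a, (g a).Monic) [∀ a, Fact (Irreducible (g a))] (hg : DPT g) :
    Fam p (fun a => AdjoinRoot (g a))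
      (fun a => (gens (bs a) (g a).natDegree).map (AdjoinRoot.mk (g a)))
      (fun a => coAdj (co a) (bs a).length (hm a)) where
  hp := h.hp
  ring := PTRing.adjoinRoot' h.ring hg hm
  alg := ⟨(DPT.mk' (S := fun q : Σ a, ZMod (p a) => K q.1) (h.ring.comp DPT.id.sfst)
    (hg.comp DPT.id.sfst) (fun _ => hm _) (DPT.C (h.ring.comp DPT.id.sfst) h.alg.map)).congr
      fun q => by rw [AdjoinRoot.algebraMap_eq']; rfl⟩
  hbs := DPT.map (dpt_gens h.field h.hbs hg.natDegree (pbd_natDegree hg))
    (DPT.mk' (h.ring.comp DPT.id.sfst) (hg.comp DPT.id.sfst) (fun _ => hm _) DPT.ssnd.val)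
  hco := by
    have := dpt_coAdj (co := co) (m := fun a => (bs a).length) hm (PTRing.zmod h.hp) h.ring h.hco
      h.hbs.length (pbd_length h.hbs) hg
    exact this
  pres a := (h.pres a).adjoin (hm a)
  dim a := by
    have := (h.pres a).finite
    have := (AdjoinRoot.powerBasis (hm a).ne_zero).finite
    rw [← Module.finrank_mul_finrank (ZMod (p a)) (K a),
      (AdjoinRoot.powerBasis (hm a).ne_zero).finrank, AdjoinRoot.powerBasis_dim, h.dim,
      List.length_map, length_gens, mul_comm]

/-! ### Multiplication tables -/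

/-- a prime, a dimension and a basis of the field of that dimension -/
structure Tab where
  /-- the characteristic -/
  p : ℕ
  /-- the characteristic is prime -/
  [hp : Fact p.Prime]
  /-- the dimension -/
  k : ℕ
  /-- the basis -/
  b : Module.Basis (Fin k) (ZMod p) (GaloisField p k)

instance (t : Tab) : Fact t.p.Prime := t.hp

/-- the field of a table -/
def Tab.K (t : Tab) : Type := GaloisField t.p t.k

namespace Tab

variable (t : Tab)

noncomputable instance : Field t.K := inferInstanceAs (Field (GaloisField t.p t.k))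

noncomputable instance : Algebra (ZMod t.p) t.K :=
  inferInstanceAs (Algebra (ZMod t.p) (GaloisField t.p t.k))

/-- the basis -/
noncomputable def bas : Module.Basis (Fin t.k) (ZMod t.p) t.K := t.b

variable {t}

/-- the list of coordinates -/
noncomputable def cs (x : t.K) : List (ZMod t.p) := List.ofFn fun i => t.bas.repr x i

theorem cs_injective : Function.Injective (cs : t.K → _) := fun _ _ h =>
  t.bas.repr.injective (Finsupp.ext fun i => congrFun (List.ofFn_injective h) i)

noncomputable instance (t : Tab) : Code t.K where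
  enc x := enc (cs x)
  ht _ := 0
  enc_inj := fun _ _ h => cs_injective (EncInj.inj (α := List (ZMod t.p)) h)
  ht_zero := rfl
  ht_one := rfl
  ht_add_le _ _ := Nat.zero_le _
  ht_neg_le _ := le_rfl
  ht_mul_le _ _ := le_rfl

instance (t : Tab) : HtZero t.K := ⟨fun _ => rfl⟩

/-- the multiplication table -/
noncomputable def tab (t : Tab) : List (List t.K) :=
  List.ofFn fun i => List.ofFn fun j => t.bas i * t.bas j

noncomputable instance : Enc Tab := ⟨fun t => pr (enc t.p) (enc t.tab)⟩

theorem dpt_q : DPT (fun t : Tab => t.p) := ⟨_, FP.fst, fun _ => fstW_pr _ _⟩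

theorem dpt_tab : DPT (fun t : Tab => t.tab) := ⟨_, FP.snd, fun _ => sndW_pr _ _⟩

theorem dpt_k : DPT (fun t : Tab => t.k) := dpt_tab.length.congr fun t => by simp [tab]

theorem pbd_k : PBd (fun t : Tab => t.k) := (pbd_length dpt_tab).mono fun t => by simp [tab]

theorem k_pos (t : Tab) : 0 < t.k := Fin.pos_iff_nonempty.2 t.bas.index_nonempty

/-- the coordinate with a given number -/
noncomputable def cd (x : t.K) (i : ℕ) : ZMod t.p := (cs x).getD i 0

theorem cd_eq (x : t.K) (i : Fin t.k) : cd x i = t.bas.repr x i := by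
  simp [cd, cs]

theorem cs_eq (x : t.K) : cs x = (List.range t.k).map (cd x) := by
  refine List.ext_getElem (by simp [cs]) fun i h1 h2 => ?_
  have h3 : i < t.k := by simpa using h2
  simpa [cs] using (cd_eq x ⟨i, h3⟩).symm

variable {c : α → Tab}

theorem dpt_cs {x : ∀ a, (c a).K} (hx : DPT x) : DPT (fun a => cs (x a)) := hx

@[fun_prop]
theorem dpt_cd {x : ∀ a, (c a).K} {i : α → ℕ} (hc : DPT c) (hx : DPT x) (hi : DPT i) :
    DPT (fun a => cd (x a) (i a)) :=
  DPT.getD (dpt_cs hx) hi (PTRing.zmod (dpt_q.comp hc)).zero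

theorem dpt_of_cd {x : ∀ a, (c a).K} {f : ∀ a, ℕ → ZMod (c a).p} (hc : DPT c)
    (hf : DPT (fun q : Σ a, {i // i ∈ List.range (c a).k} => f q.1 q.2.1))
    (h : ∀ a (i : Fin (c a).k), f a i = (c a).bas.repr (x a) i) : DPT x := by
  refine (DPT.map (f := f) (DPT.range (dpt_k.comp hc) (pbd_comp pbd_k hc)) hf).of_enc fun a => ?_
  change _ = enc (cs (x a))
  rw [cs_eq]
  congr 1
  refine List.map_congr_left fun i hi => ?_
  exact (h a ⟨i, List.mem_range.1 hi⟩).trans (cd_eq (x a) ⟨i, List.mem_range.1 hi⟩).symm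

theorem dpt_zero : DPT (fun t : Tab => (0 : t.K)) :=
  dpt_of_cd (f := fun _ _ => 0) DPT.id (PTRing.zmod (dpt_q.comp DPT.id.sfst)).zero
    fun _ _ => by simp

/-- the entry of the table -/
noncomputable def ent (t : Tab) (i j : ℕ) : t.K := (t.tab.getD i []).getD j 0

theorem ent_eq (t : Tab) (i j : Fin t.k) : t.ent i j = t.bas i * t.bas j := by
  simp [ent, tab]

@[fun_prop]
theorem dpt_ent {i j : α → ℕ} (hc : DPT c) (hi : DPT i) (hj : DPT j) :
    DPT (fun a => (c a).ent (i a) (j a)) :=
  DPT.getD (DPT.getD (dpt_tab.comp hc) hi DPT.nil) hj (dpt_zero.comp hc)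

theorem dpt_mul : DPT (fun q : Σ t : Tab, t.K × t.K => q.2.1 * q.2.2) := by
  have h1 := dpt_q
  have h2 := dpt_k
  have h3 := pbd_k
  refine dpt_of_cd (f := fun q l => ∑ i ∈ Finset.range q.1.k, ∑ j ∈ Finset.range q.1.k,
    cd q.2.1 i * cd q.2.2 j * cd (q.1.ent i j) l) DPT.id.sfst (by fun_prop) fun q l => ?_
  obtain ⟨t, x, y⟩ := q
  simp only
  conv_rhs => rw [← t.bas.sum_repr x, ← t.bas.sum_repr y, Finset.sum_mul_sum]
  simp only [Finset.sum_range, cd_eq, ent_eq, map_sum, Finsupp.finsetSum_apply, smul_mul_smul_comm,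
    map_smul, Finsupp.smul_apply, smul_eq_mul]

theorem ptsz : PTSz Tab.K := by
  obtain ⟨b, hb, hb'⟩ := (PTRing.zmod dpt_q).sz.list.pbd pbd_k
  obtain ⟨d, hd⟩ := hb
  refine ⟨⟨d, fun a x => ?_⟩, fun a x => Nat.zero_le _⟩
  refine ((hb' a (cs x) ?_).trans (hd a)).trans (pb_mono d (Nat.le_add_right _ _))
  exact ht_list_le.2 ⟨by simp [cs], fun _ _ => Nat.zero_le _⟩

theorem foldl_pow {R : Type} [CommRing R] (x : R) (n : ℕ) (hn : n ≠ 0) :
    n.bits.reverse.tail.foldl (fun u b => bif b then u * u * x else u * u) x = x ^ n := by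
  induction n using Nat.binaryRec' with
  | zero => exact absurd rfl hn
  | bit b n h ih =>
    rw [Nat.bits_append_bit _ _ h, List.reverse_cons]
    by_cases h0 : n = 0
    · rw [h h0, h0]
      simp [Nat.bit_val]
    · rw [List.tail_append_of_ne_nil (by
        rw [Ne, List.reverse_eq_nil_iff, ← List.length_eq_zero_iff, Nat.size_eq_bits_len,
          Nat.size_eq_zero]
        exact h0), List.foldl_append, ih h0]
      cases b <;> simp [Nat.bit_val, pow_succ, two_mul, pow_add]

theorem finrank_eq (t : Tab) : Module.finrank (ZMod t.p) t.K = t.k := by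
  rw [Module.finrank_eq_card_basis t.bas, Fintype.card_fin]

theorem dpt_one : DPT (fun t : Tab => (1 : t.K)) := by
  have h1 := dpt_q
  have h2 := dpt_k
  have h3 := pbd_k
  have h4 := DPT.fn2 (fun (t : Tab) (x y : t.K) => x * y) dpt_mul
  have h5 : DPT (fun t : Tab => t.ent 0 0) := dpt_ent DPT.id (DPT.const 0) (DPT.const 0)
  refine (DPT.foldl_zero (γ := fun _ => Bool)
    (f := fun (t : Tab) (u : t.K) b => bif b then u * u * t.ent 0 0 else u * u) ptsz
    (l := fun t => (t.p ^ t.k - 1).bits.reverse.tail) (by fun_prop) h5 ?_).congr fun t => ?_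
  · have h6 := h4 (c := fun q : Σ t : Tab, t.K × {x // x ∈ (t.p ^ t.k - 1).bits.reverse.tail} =>
      q.1) DPT.id.sfst DPT.ssnd.fst DPT.ssnd.fst
    exact DPT.cond DPT.ssnd.snd.val (h4 DPT.id.sfst h6 (h5.comp DPT.id.sfst)) h6
  · have := Module.Finite.of_basis t.bas
    have : Finite t.K := Module.finite_of_finite (ZMod t.p)
    have := Fintype.ofFinite t.K
    have h6 : Fintype.card t.K = t.p ^ t.k := by
      rw [Module.card_eq_pow_finrank (K := ZMod t.p), ZMod.card, finrank_eq]
    have h7 := Fintype.one_lt_card (α := t.K)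
    rw [foldl_pow _ _ (by omega), ← h6]
    refine FiniteField.pow_card_sub_one_eq_one _ ?_
    rw [show t.ent 0 0 = _ from t.ent_eq ⟨0, t.k_pos⟩ ⟨0, t.k_pos⟩]
    exact mul_ne_zero (t.bas.ne_zero _) (t.bas.ne_zero _)

theorem ptring : PTRing Tab.K where
  zero := dpt_zero
  one := dpt_one
  add := by
    have h1 := dpt_q
    exact dpt_of_cd (f := fun q l => cd q.2.1 l + cd q.2.2 l) DPT.id.sfst (by fun_prop)
      fun q l => by simp [cd_eq]
  mul := dpt_mul
  neg := by
    have h1 := dpt_q
    exact dpt_of_cd (f := fun q l => - cd q.2 l) DPT.id.sfst (by fun_prop)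
      fun q l => by simp [cd_eq]
  sz := ptsz

/-- the coordinates as a polynomial -/
noncomputable def co (t : Tab) : t.K →ₗ[ZMod t.p] (ZMod t.p)[X] :=
  ∑ i : Fin t.k, (monomial (i : ℕ)).comp (t.bas.coord i)

theorem co_eq (x : t.K) : t.co x = ofL (cs x) := by
  simp [co, ofL, cs, Finset.sum_range]

theorem fam : Fam (fun t : Tab => t.p) Tab.K (fun t => List.ofFn t.bas) Tab.co where
  hp := dpt_q
  ring := ptring
  alg := by
    have h1 := dpt_q
    refine ⟨dpt_of_cd (f := fun q l => q.2 * cd (1 : q.1.K) l) DPT.id.sfst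
      (DPT.mul (by fun_prop) (by fun_prop) (dpt_cd DPT.id.sfst.sfst (dpt_one.comp DPT.id.sfst.sfst)
        (by fun_prop))) fun q l => ?_⟩
    rw [Algebra.algebraMap_eq_smul_one, map_smul, cd_eq]
    rfl
  hbs := by
    classical
    have h1 := dpt_q
    have h2 : DPT (fun q : Σ t : Tab, {i // i ∈ List.range t.k} =>
        q.1.bas ⟨q.2.1, List.mem_range.1 q.2.2⟩) := by
      refine dpt_of_cd (f := fun q l => if q.2.1 = l then 1 else 0) DPT.id.sfst (by fun_prop)
        fun q l => ?_
      simp [Finsupp.single_apply, Fin.ext_iff]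
    have h3 := DPT.map (f := fun (t : Tab) i => if h : i < t.k then t.bas ⟨i, h⟩ else 0)
      (DPT.range dpt_k pbd_k) (h2.congr fun q => by rw [dif_pos (List.mem_range.1 q.2.2)])
    refine h3.congr fun t => List.ext_getElem (by simp) fun i h4 h5 => ?_
    have h6 : i < t.k := by simpa using h4
    simp [h6]
  hco := (DPT.ofL (PTRing.zmod (dpt_q.comp DPT.id.sfst)) (dpt_cs DPT.ssnd)).congr
    fun q => (co_eq q.2).symm
  pres t :=
    { top := fun x => by
        have : {v | v ∈ List.ofFn t.bas} = Set.range t.bas := by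
          ext v
          simp [List.mem_ofFn']
        rw [spn, this, t.bas.span_eq]
        trivial
      inj := fun x y h => by
        rw [co_eq, co_eq] at h
        refine t.bas.repr.injective (Finsupp.ext fun i => ?_)
        rw [← cd_eq, ← cd_eq, cd, cd, ← coeff_ofL, ← coeff_ofL, h]
      deg := fun x => by
        rw [co_eq]
        simpa [cs] using degree_ofL_lt (cs x) }
  dim t := by rw [finrank_eq, List.length_ofFn]

end Tab

end Vale.Agent.N319
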