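import Mathlib.Computability.TuringMachine.Computable
import Mathlib.Algebra.Polynomial.Degree.Defs
import Mathlib.Data.ZMod.Basic
import Mathlib.LinearAlgebra.Basis.Defs

/-!
Binary codes for polynomials over finite fields, runs of Turing machines, factorizations.
-/

open Polynomial

namespace Vale.Agent.N319.Stmt

/-- The code of a pair of binary words: every bit `b` of the first word is written as `1 b`, then
comes a `0`, then the second word. -/
def pair : List Bool → List Bool → List Bool
  | [], y => false :: y
  | b :: x, y => true :: b :: pair x y

/-- The code of a list of binary words: nested pairs, ended by the empty word. -/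
def codeList : List (List Bool) → List Bool
  | [] => []
  | w :: l => pair w (codeList l)

/-- The code of a residue class modulo `p`: its least nonnegative representative in binary. -/
def codeZ {p : ℕ} (a : ZMod p) : List Bool := a.val.bits

/-- The code of a polynomial of degree `n`: the list of the codes of its `n + 1` coefficients,
constant term first. -/
noncomputable def codePoly {K : Type} [Semiring K] (e : K → List Bool) (f : K[X]) : List Bool :=
  codeList ((List.range (f.natDegree + 1)).map fun i => e (f.coeff i))

/-- The code of a factorization: the leading coefficient of `f` and the list of the factors with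
their exponents in binary. -/
noncomputable def codeFac {K : Type} [Semiring K] (e : K → List Bool) (f : K[X])
    (L : List (K[X] × ℕ)) : List Bool :=
  pair (e f.leadingCoeff) (codeList (L.map fun q => pair (codePoly e q.1) q.2.bits))

/-- The code of a field element: the list of its coordinates in the basis `b`. -/
noncomputable def codeElt {p k : ℕ} {K : Type} [Semiring K] [Module (ZMod p) K]
    (b : Module.Basis (Fin k) (ZMod p) K) (x : K) : List Bool :=
  codeList (List.ofFn fun i => codeZ (b.repr x i))

/-- The code of a field with a basis: `p` in binary and the multiplication table of the basis. -/
noncomputable def codeField {p k : ℕ} {K : Type} [Semiring K] [Module (ZMod p) K]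
    (b : Module.Basis (Fin k) (ZMod p) K) : List Bool :=
  pair p.bits (codeList (List.ofFn fun i => codeList (List.ofFn fun j => codeElt b (b i * b j))))

/-- `L` lists the distinct monic irreducible factors of `f` with their multiplicities. -/
def IsFactorization {K : Type} [Field K] (f : K[X]) (L : List (K[X] × ℕ)) : Prop :=
  f = C f.leadingCoeff * (L.map fun q => q.1 ^ q.2).prod ∧
    (∀ q ∈ L, q.1.Monic ∧ Irreducible q.1 ∧ 0 < q.2) ∧ (L.map Prod.fst).Nodup

/-- The machine `M`, started on the word `x`, halts within `t` steps with the output `y`. -/
def Runs (M : Turing.TM2ComputableAux Bool Bool) (x y : List Bool) (t : ℕ) : Prop :=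
  Nonempty (Turing.TM2OutputsInTime M.tm (x.map M.inputAlphabet.symm)
    (some (y.map M.outputAlphabet.symm)) t)

end Vale.Agent.N319.Stmt
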