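import Vale.Agent.N319.Irr
import Vale.Agent.N319.Stmt

/-!
The Turing machines of the final statement.
-/

open Polynomial

namespace Vale.Agent.N319

open Vale.Agent.Lib.PolyTime hiding C P nrm
open Vale.Agent.Lib.Dep Vale.Agent.P319 Vale.Agent.N319.Stmt

theorem pair_eq' (x y : List Bool) : pair x y = pr x y := by
  induction x with
  | nil => rfl
  | cons b x ih => rw [pair, pr, ih]

theorem codeList_eq' {κ ι : Type} [Enc κ] (l : List ι) {e : ι → List Bool} {f : ι → κ}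
    (h : ∀ x, e x = enc (f x)) : codeList (l.map e) = enc (l.map f) := by
  induction l with
  | nil => rfl
  | cons a l ih => rw [List.map_cons, codeList, List.map_cons, enc_cons, ih, pair_eq', h]

theorem codeList_ofFn {κ : Type} [Enc κ] {k : ℕ} {e : Fin k → List Bool} {f : Fin k → κ}
    (h : ∀ x, e x = enc (f x)) : codeList (List.ofFn e) = enc (List.ofFn f) := by
  rw [List.ofFn_eq_map, List.ofFn_eq_map, codeList_eq' _ h]

section Transfer

variable {K E : Type} [Field K] [Field E] [Code E] {e : K → List Bool} (φ : K ≃+* E)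

theorem codePoly_eq' (h : ∀ x, e x = enc (φ x)) (f : K[X]) :
    codePoly e f = enc (f.map (φ : K →+* E)) := by
  rw [enc_poly, toL, natDegree_map, codePoly]
  exact codeList_eq' _ fun i => by rw [h, coeff_map]; rfl

theorem fac_transfer (h : ∀ x, e x = enc (φ x)) (f : K[X]) {F : List E[X]}
    (hF : IsFac (f.map (φ : K →+* E)) F) : ∃ L, IsFactorization f L ∧
      codeFac e f L = enc ((f.map (φ : K →+* E)).leadingCoeff, collect F) := by
  let ψ : K[X] ≃+* E[X] := mapEquiv φ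
  have hψ : ∀ g, ψ g = g.map (φ : K →+* E) := fun _ => rfl
  refine ⟨(collect F).map fun q => (ψ.symm q.1, q.2), ⟨ψ.injective ?_, fun q hq => ?_, ?_⟩, ?_⟩
  · rw [map_mul, map_list_prod, List.map_map, List.map_map, hψ, hψ, map_C, ← leadingCoeff_map]
    conv_lhs => rw [← hF.1, ← prod_collect F]
    congr 2
    exact List.map_congr_left fun q _ => by simp
  · obtain ⟨q', hq', rfl⟩ := List.mem_map.1 hq
    obtain ⟨h1, h2⟩ := mem_collect hq'
    obtain ⟨h3, h4⟩ := hF.2 _ h1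
    exact ⟨h3.map _, h4.map ψ.symm.toMulEquiv, h2⟩
  · have := (collect_nodup F).map ψ.symm.injective
    rw [List.map_map] at this ⊢
    exact this
  · rw [codeFac, enc_pair, pair_eq', leadingCoeff_map, h, List.map_map]
    congr 1
    conv_rhs => rw [← List.map_id (collect F)]
    refine codeList_eq' _ fun q => ?_
    rw [Function.comp_apply, pair_eq', codePoly_eq' φ h, ← hψ, ψ.apply_symm_apply]
    rfl

end Transfer

theorem exists_machine {α : Type} [Enc α] {β : α → Type} [∀ a, Enc (β a)] {F : ∀ a, β a}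
    (hF : DPT F) : ∃ (M : Turing.TM2ComputableAux Bool Bool) (c : ℕ), (∀ k, Finite (M.tm.Γ k)) ∧
      ∀ a m, 1 ≤ m → esize a ≤ 100 * m ^ 3 → Runs M (enc a) (enc (F a)) (c * m ^ c) := by
  obtain ⟨M, hM⟩ := PT.exists_tm2 hF.rawPT
  obtain ⟨d, hd⟩ := PB.of_polynomial M.time
  refine ⟨M.toTM2ComputableAux, 102 ^ d + 3 * d, hM, fun a m hm h => ?_⟩
  have h4 := M.outputsFun a
  refine ⟨⟨h4.toEvalsTo, h4.steps_le_m.trans ((hd _).trans ?_)⟩⟩
  have h1 : 1 ≤ m ^ 3 := Nat.one_le_pow _ _ hm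
  calc (esize a + 2) ^ d ≤ (102 * m ^ 3) ^ d := Nat.pow_le_pow_left (by omega) d
    _ = 102 ^ d * m ^ (3 * d) := by rw [mul_pow, ← pow_mul]
    _ ≤ (102 ^ d + 3 * d) * m ^ (102 ^ d + 3 * d) :=
      Nat.mul_le_mul (Nat.le_add_right _ _) (Nat.pow_le_pow_right hm (Nat.le_add_left _ _))

theorem goal_prime : ∃ (M : Turing.TM2ComputableAux Bool Bool) (c : ℕ), (∀ k, Finite (M.tm.Γ k)) ∧
    ∀ (p : ℕ) [Fact p.Prime] (f : (ZMod p)[X]), f ≠ 0 → ∃ L, IsFactorization f L ∧
      Runs M (pair p.bits (codePoly codeZ f)) (codeFac codeZ f L)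
        (c * ((f.natDegree + 1) * Nat.clog 2 p) ^ c) := by
  have h1 : DPT (fun x : Inp => (x.2.leadingCoeff, collect (facP x.1.1 x.2))) := by fun_prop
  obtain ⟨M, c, hM, h⟩ := exists_machine h1
  refine ⟨M, c, hM, fun p _ f _ => ?_⟩
  have hp : p.Prime := Fact.out
  have e1 : f.map (RingEquiv.refl (ZMod p) : ZMod p →+* ZMod p) = f := map_id
  obtain ⟨L, h2, h3⟩ := fac_transfer (e := codeZ) (RingEquiv.refl (ZMod p)) (fun _ => rfl) f
    (F := facP p f) (by rw [e1]; exact facP_spec f)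
  refine ⟨L, h2, ?_⟩
  rw [h3, codePoly_eq' (e := codeZ) (RingEquiv.refl (ZMod p)) (fun _ => rfl), e1, pair_eq']
  have h4 : 1 ≤ (f.natDegree + 1) * Nat.clog 2 p :=
    Nat.mul_pos (Nat.succ_pos _) (Nat.clog_pos (by norm_num) hp.two_le)
  refine h ⟨⟨p, hp⟩, f⟩ _ h4 ((esize_inp_le ⟨⟨p, hp⟩, f⟩).trans ?_)
  exact Nat.mul_le_mul (by norm_num) (Nat.le_self_pow (by norm_num) _)

theorem exists_tab {p k : ℕ} [Fact p.Prime] {K : Type} [Field K] [Algebra (ZMod p) K]
    (b : Module.Basis (Fin k) (ZMod p) K) : ∃ (t : Tab) (φ : K ≃+* t.K), t.p = p ∧ t.k = k ∧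
      codeField b = enc t ∧ ∀ x, codeElt b x = enc (φ x) := by
  have := Module.Finite.of_basis b
  have h1 : Nat.card K = p ^ k := by
    rw [Module.natCard_eq_pow_finrank (K := ZMod p), Nat.card_zmod, Module.finrank_eq_card_basis b,
      Fintype.card_fin]
  let φ := GaloisField.algEquivGaloisField p k h1
  let t : Tab := ⟨p, k, b.map φ.toLinearEquiv⟩
  have h2 : ∀ x, codeElt b x = enc (show t.K from φ x) := fun x =>
    codeList_ofFn (f := fun i => (b.map φ.toLinearEquiv).repr (φ x) i) fun i => by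
      have : (b.map φ.toLinearEquiv).repr (φ x) i = b.repr x i := by
        change b.repr (φ.symm (φ x)) i = _
        rw [φ.symm_apply_apply]
      rw [this]
      rfl
  refine ⟨t, φ.toRingEquiv, rfl, rfl, ?_, h2⟩
  rw [codeField, pair_eq']
  refine congrArg (pr p.bits) (codeList_ofFn fun i => codeList_ofFn fun j => ?_)
  rw [h2, map_mul]
  rfl

namespace Tab

theorem esize_elt (t : Tab) (x : t.K) : esize x ≤ 5 * (t.k * Nat.clog 2 t.p) := by
  have hp : t.p.Prime := Fact.out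
  have h1 := size_le_clog hp.two_le
  have h2 : 0 < Nat.clog 2 t.p := Nat.clog_pos (by norm_num) hp.two_le
  have h3 : esize (cs x) ≤ (cs x).length * (2 * (2 * Nat.clog 2 t.p) + 1) :=
    esize_list_le fun c _ => ((esize_nat_mono (ZMod.val_lt c).le).trans (esize_nat _).le).trans h1
  rw [cs, List.length_ofFn] at h3
  refine h3.trans ?_
  nlinarith [Nat.zero_le t.k]

theorem pos (t : Tab) : 1 ≤ t.k * Nat.clog 2 t.p :=
  Nat.mul_pos t.k_pos (Nat.clog_pos (by norm_num) (Fact.out : t.p.Prime).two_le)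

theorem esize_tab (t : Tab) : esize t ≤ 40 * (t.k * Nat.clog 2 t.p) ^ 3 := by
  have hp : t.p.Prime := Fact.out
  have h1 := size_le_clog hp.two_le
  have h2 : 0 < Nat.clog 2 t.p := Nat.clog_pos (by norm_num) hp.two_le
  have h0 := t.k_pos
  have h3 : esize t.tab ≤ t.tab.length * (2 * (t.k * (2 * (5 * (t.k * Nat.clog 2 t.p)) + 1)) + 1) := by
    refine esize_list_le fun l hl => ?_
    obtain ⟨i, rfl⟩ := (List.mem_ofFn' _ _).1 hl
    refine (esize_list_le fun x _ => t.esize_elt x).trans ?_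
    rw [List.length_ofFn]
  have h4 : esize t = 2 * Nat.size t.p + esize t.tab + 1 := by
    rw [← esize_nat]
    exact length_pr _ _
  rw [tab, List.length_ofFn, ← tab] at h3
  have h5 := t.pos
  have h6 : t.k ≤ t.k * Nat.clog 2 t.p := Nat.le_mul_of_pos_right _ h2
  have h7 : Nat.clog 2 t.p ≤ t.k * Nat.clog 2 t.p := Nat.le_mul_of_pos_left _ h0
  generalize t.k * Nat.clog 2 t.p = m at h3 h5 h6 h7
  have h8 : t.k * (2 * (t.k * (2 * (5 * m) + 1)) + 1) ≤ m * (2 * (m * (2 * (5 * m) + 1)) + 1) := by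
    gcongr
  have h9 : m ≤ m ^ 2 := Nat.le_self_pow (by norm_num) _
  have h10 : m ^ 2 ≤ m ^ 3 := Nat.pow_le_pow_right h5 (by norm_num)
  nlinarith

end Tab

theorem goal_field : ∃ (M : Turing.TM2ComputableAux Bool Bool) (c : ℕ), (∀ k, Finite (M.tm.Γ k)) ∧
    ∀ (p : ℕ) [Fact p.Prime] (K : Type) [Field K] [Algebra (ZMod p) K] (k : ℕ)
      (b : Module.Basis (Fin k) (ZMod p) K) (f : K[X]), f ≠ 0 → ∃ L, IsFactorization f L ∧
        Runs M (pair (codeField b) (codePoly (codeElt b) f)) (codeFac (codeElt b) f L)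
          (c * ((f.natDegree + 1) * k * Nat.clog 2 p) ^ c) := by
  have h0 := Tab.fam.comp (DPT.id.sfst (β := fun t : Tab => t.K[X]))
  have h1 : DPT (fun x : Σ t : Tab, t.K[X] =>
      (x.2.leadingCoeff, collect (facK (List.ofFn x.1.bas) x.1.co x.2))) :=
    DPT.pair (DPT.leadingCoeff h0.ring DPT.ssnd) (dpt_collect (h0.dpt_facK DPT.ssnd))
  obtain ⟨M, c, hM, h⟩ := exists_machine h1
  refine ⟨M, c, hM, fun p _ K _ _ k b f _ => ?_⟩
  obtain ⟨t, φ, rfl, rfl, h2, h3⟩ := exists_tab b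
  obtain ⟨L, h4, h5⟩ := fac_transfer φ h3 f ((Tab.fam.pres t).facK_spec _)
  refine ⟨L, h4, ?_⟩
  rw [h5, codePoly_eq' φ h3, h2, pair_eq', mul_assoc]
  have h6 := t.pos
  have h7 := t.esize_tab
  have h8 : esize (f.map (φ : K →+* t.K)) ≤
      (f.natDegree + 1) * (2 * (5 * (t.k * Nat.clog 2 t.p)) + 1) := by
    rw [← natDegree_map (φ : K →+* t.K), ← length_toL]
    exact esize_list_le (l := toL _) fun x _ => t.esize_elt x
  refine h ⟨t, f.map (φ : K →+* t.K)⟩ _ (Nat.mul_pos (Nat.succ_pos _) h6) ?_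
  rw [esize_sigma]
  generalize t.k * Nat.clog 2 t.p = m at h6 h7 h8
  have h9 : m ^ 3 ≤ ((f.natDegree + 1) * m) ^ 3 :=
    Nat.pow_le_pow_left (Nat.le_mul_of_pos_left _ (Nat.succ_pos _)) 3
  have h10 : (f.natDegree + 1) * m ≤ ((f.natDegree + 1) * m) ^ 3 := Nat.le_self_pow (by norm_num) _
  have h11 : f.natDegree + 1 ≤ (f.natDegree + 1) * m := Nat.le_mul_of_pos_right _ h6
  simp only
  nlinarith

theorem goal_irr : ∃ (M : Turing.TM2ComputableAux Bool Bool) (c : ℕ), (∀ k, Finite (M.tm.Γ k)) ∧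
    ∀ (p : ℕ) [Fact p.Prime] (K : Type) [Field K] [Algebra (ZMod p) K] (k : ℕ)
      (b : Module.Basis (Fin k) (ZMod p) K) (n : ℕ), 0 < n →
        ∃ g : K[X], g.Monic ∧ Irreducible g ∧ g.natDegree = n ∧
          Runs M (pair (codeField b) (List.replicate n true)) (codePoly (codeElt b) g)
            (c * (n * k * Nat.clog 2 p) ^ c) := by
  have h0 := Tab.fam.comp (DPT.id.sfst (β := fun _ : Tab => Raw))
  obtain ⟨M, c, hM, h⟩ := exists_machine (h0.dpt_irrK DPT.ssnd.esize (pbd_esize DPT.ssnd))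
  refine ⟨M, c, hM, fun p _ K _ _ k b n hn => ?_⟩
  obtain ⟨t, φ, rfl, rfl, h2, h3⟩ := exists_tab b
  obtain ⟨h4, h5, h6⟩ := (Tab.fam.pres t).irrK_spec (Tab.fam.dim t) hn.ne'
  let ψ : K[X] ≃+* t.K[X] := mapEquiv φ
  have hψ : ∀ g, ψ g = g.map (φ : K →+* t.K) := fun _ => rfl
  refine ⟨ψ.symm (irrK (List.ofFn t.bas) t.co n), h4.map _, h5.map ψ.symm.toMulEquiv,
    (natDegree_map _).trans h6, ?_⟩
  rw [codePoly_eq' φ h3, h2, pair_eq', mul_assoc, ← hψ, ψ.apply_symm_apply]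
  have h7 := t.pos
  have h8 := t.esize_tab
  have h9 : esize (⟨List.replicate n true⟩ : Raw) = n := List.length_replicate
  have := h ⟨t, ⟨List.replicate n true⟩⟩ _ (Nat.mul_pos hn h7) (by
    rw [esize_sigma]
    generalize t.k * Nat.clog 2 t.p = m at h7 h8
    have h10 : m ^ 3 ≤ (n * m) ^ 3 := Nat.pow_le_pow_left (Nat.le_mul_of_pos_left _ hn) 3
    have h11 : n * m ≤ (n * m) ^ 3 := Nat.le_self_pow (by norm_num) _
    have h12 : n ≤ n * m := Nat.le_mul_of_pos_right _ h7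
    simp only
    omega)
  simp only [h9] at this
  exact this

end Vale.Agent.N319
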