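import Vale.Agent.N319.Fam

/-!
Construction of an irreducible polynomial of a given degree over a finite field, from the
factorization algorithm.
-/

open Polynomial

namespace Vale.Agent.N319

open Vale.Agent.Lib.PolyTime hiding C P nrm
open Vale.Agent.Lib.Dep Vale.Agent.P319 Vale.Agent.P319.Alg

/-! ### The first factor -/

section Hd

variable {K : Type} [Field K]

open Classical in
/-- the first factor -/
noncomputable def hd1 (fac : K[X] → List K[X]) (u : K[X]) : K[X] :=
  if u = 0 then 1 else (fac u).headD 1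

/-- monic and irreducible of degree `n` -/
def MI (n : ℕ) (g : K[X]) : Prop := g.Monic ∧ Irreducible g ∧ g.natDegree = n

variable {fac : K[X] → List K[X]}

theorem hd1_cases (hf : ∀ u, IsFac u (fac u)) (u : K[X]) :
    (hd1 fac u = 1 ∧ u.natDegree = 0) ∨
      (u ≠ 0 ∧ (hd1 fac u).Monic ∧ Irreducible (hd1 fac u) ∧ hd1 fac u ∣ u) := by
  unfold hd1
  split_ifs with h
  · exact Or.inl ⟨rfl, by rw [h, natDegree_zero]⟩
  obtain ⟨h1, h2⟩ := hf u
  rcases e : fac u with _ | ⟨g, L⟩
  · rw [e, List.prod_nil, mul_one] at h1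
    exact Or.inl ⟨rfl, by rw [← h1, natDegree_C]⟩
  · rw [e] at h1 h2
    obtain ⟨h3, h4⟩ := h2 g List.mem_cons_self
    refine Or.inr ⟨h, h3, h4, ?_⟩
    rw [← h1, List.prod_cons]
    exact (dvd_mul_right g _).mul_left _

theorem hd1_deg (hf : ∀ u, IsFac u (fac u)) (u : K[X]) : (hd1 fac u).natDegree ≤ u.natDegree := by
  rcases hd1_cases hf u with h | h
  · rw [h.1, natDegree_one]
    exact Nat.zero_le _
  · exact natDegree_le_of_dvd h.2.2.2 h.1

theorem hd1_spec (hf : ∀ u, IsFac u (fac u)) {u : K[X]} (hu : 0 < u.natDegree) :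
    (hd1 fac u).Monic ∧ Irreducible (hd1 fac u) ∧ hd1 fac u ∣ u := by
  rcases hd1_cases hf u with h | h
  · omega
  · exact h.2

open Classical in
/-- a normalized member of the list which is irreducible of degree `n`, or `1` -/
noncomputable def pick (fac : K[X] → List K[X]) (n : ℕ) (L : List K[X]) : K[X] :=
  ((L.map nrm).find? fun u => decide (u.natDegree = n ∧ hd1 fac u = u)).getD 1

theorem pick_deg (n : ℕ) (L : List K[X]) : (pick fac n L).natDegree ≤ n := by
  classical
  rcases find_cases (L.map nrm) (fun u => u.natDegree = n ∧ hd1 fac u = u) 1 with h | h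
  · rw [pick, h.1, natDegree_one]
    exact Nat.zero_le _
  · exact h.2.1.le

theorem pick_spec (hf : ∀ u, IsFac u (fac u)) {n : ℕ} {L : List K[X]} {u : K[X]} (hu : u ∈ L)
    (h : MI n (nrm u)) : MI n (pick fac n L) := by
  classical
  have h0 : 0 < n := h.2.2 ▸ h.2.1.natDegree_pos
  rcases find_cases (L.map nrm) (fun u => u.natDegree = n ∧ hd1 fac u = u) 1 with k | k
  · refine absurd ⟨h.2.2, ?_⟩ (k.2 _ (List.mem_map_of_mem hu))
    obtain ⟨h1, h2, h3⟩ := hd1_spec hf (u := nrm u) (h.2.2 ▸ h0)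
    exact eq_of_monic_of_associated h1 h.1 ((h2.dvd_irreducible_iff_associated h.2.1).1 h3)
  · obtain ⟨-, k1, k2⟩ := k
    change (pick fac n L).natDegree = n at k1
    change hd1 fac (pick fac n L) = pick fac n L at k2
    obtain ⟨h1, h2, -⟩ := hd1_spec hf (u := pick fac n L) (by rwa [k1])
    rw [k2] at h1 h2
    exact ⟨h1, h2, k1⟩

theorem mi_of_aeval {E : Type} [Field E] [Algebra K E] {x : E} (hx : IsIntegral K x) {u : K[X]}
    (h0 : u ≠ 0) (h1 : u.natDegree ≤ (minpoly K x).natDegree) (h2 : aeval x u = 0) :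
    MI (minpoly K x).natDegree (nrm u) := by
  rw [eq_of_monic_of_dvd_of_natDegree_le (minpoly.monic hx) (nrm_monic h0)
    ((minpoly.dvd K _ h2).trans (dvd_nrm u)) (by rwa [natDegree_nrm])]
  exact ⟨minpoly.monic hx, minpoly.irreducible hx, rfl⟩

theorem deg_dvd_iff [Finite K] {E : Type} [Field E] [Algebra K E] {g : K[X]} (hg : Irreducible g)
    {x : E} (hx : aeval x g = 0) (n : ℕ) : g.natDegree ∣ n ↔ x ^ Nat.card K ^ n = x := by
  have h : g ∣ minpoly K x := by
    rw [← minpoly.eq_of_irreducible hg hx]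
    exact dvd_mul_right _ _
  rw [hg.natDegree_dvd_iff_dvd_X_pow_card_pow_sub_X,
    (associated_of_dvd_dvd h (minpoly.dvd K x hx)).dvd_iff_dvd_left, minpoly.dvd_iff, map_sub,
    map_pow, aeval_X, sub_eq_zero]

end Hd

/-! ### Towers of radical and Artin-Schreier extensions -/

section Tower

variable {p : ℕ} [Fact p.Prime]

variable (p) in
/-- the polynomial which is substituted -/
noncomputable def phi (r : ℕ) : (ZMod p)[X] := if r = p then X ^ r - X else X ^ r

variable (p) in
/-- the polynomial at the bottom of the tower -/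
noncomputable def psi (r : ℕ) : (ZMod p)[X] :=
  if r = p then X - 1 else ∑ i ∈ Finset.range r, X ^ i

variable (p) in
/-- the tower, up to degree `N` -/
noncomputable def tow (r N j : ℕ) : (ZMod p)[X] :=
  (fun g => if g.natDegree < N then hd1 (facP p) (g.comp (phi p r)) else g)^[j]
    (hd1 (facP p) (psi p r))

theorem phi_deg (r : ℕ) : (phi p r).natDegree = r := by
  unfold phi
  split_ifs with h
  · exact FiniteField.X_pow_card_sub_X_natDegree_eq _ (h ▸ (Fact.out : p.Prime).one_lt)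
  · exact natDegree_X_pow r

theorem psi_deg_le (r : ℕ) : (psi p r).natDegree ≤ r := by
  unfold psi
  split_ifs with h
  · rw [← C_1, natDegree_X_sub_C, h]
    exact (Fact.out : p.Prime).one_le
  · exact natDegree_sum_le_of_forall_le _ _ fun i hi =>
      (natDegree_X_pow i).le.trans (Finset.mem_range.1 hi).le

theorem psi_deg_pos {r : ℕ} (hr : r.Prime) : 0 < (psi p r).natDegree := by
  have : Fact r.Prime := ⟨hr⟩
  unfold psi
  split_ifs with h
  · rw [← C_1, natDegree_X_sub_C]
    exact one_pos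
  · rw [← cyclotomic_prime, natDegree_cyclotomic, Nat.totient_pos]
    exact hr.pos

theorem tow_succ (r N j : ℕ) : tow p r N (j + 1) =
    if (tow p r N j).natDegree < N then hd1 (facP p) ((tow p r N j).comp (phi p r))
      else tow p r N j := Function.iterate_succ_apply' _ _ _

theorem tow_deg (r N j : ℕ) : (tow p r N j).natDegree ≤ r + N * r := by
  induction j with
  | zero => exact ((hd1_deg facP_spec _).trans (psi_deg_le r)).trans (Nat.le_add_right _ _)
  | succ j ih =>
    rw [tow_succ]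
    split_ifs with h
    · refine (hd1_deg facP_spec _).trans ?_
      rw [natDegree_comp, phi_deg]
      exact (Nat.mul_le_mul_right _ h.le).trans (Nat.le_add_left _ _)
    · exact ih

theorem tow_inv {r : ℕ} (hr : r.Prime) (N j : ℕ) :
    (tow p r N j).Monic ∧ Irreducible (tow p r N j) ∧ ∃ i, (i = j ∨ N ≤ (tow p r N j).natDegree) ∧
      tow p r N j ∣ (fun u => u.comp (phi p r))^[i] (psi p r) := by
  induction j with
  | zero =>
    obtain ⟨h1, h2, h3⟩ := hd1_spec facP_spec (psi_deg_pos (p := p) hr)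
    exact ⟨h1, h2, 0, Or.inl rfl, h3⟩
  | succ j ih =>
    obtain ⟨h1, h2, i, h3, h4⟩ := ih
    rw [tow_succ]
    split_ifs with h
    · obtain ⟨k1, k2, k3⟩ := hd1_spec facP_spec (u := (tow p r N j).comp (phi p r)) (by
        rw [natDegree_comp, phi_deg]
        exact Nat.mul_pos h2.natDegree_pos hr.pos)
      refine ⟨k1, k2, i + 1, Or.inl (by omega), k3.trans ?_⟩
      rw [Function.iterate_succ_apply']
      obtain ⟨w, hw⟩ := h4
      rw [hw, mul_comp]
      exact dvd_mul_right _ _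
    · exact ⟨h1, h2, i, Or.inr (by omega), h4⟩

theorem aeval_iter {E : Type} [Field E] [Algebra (ZMod p) E] (φ ψ : (ZMod p)[X]) (i : ℕ) (x : E) :
    aeval x ((fun u => u.comp φ)^[i] ψ) = aeval ((fun y => aeval y φ)^[i] x) ψ := by
  induction i generalizing x with
  | zero => rfl
  | succ i ih => rw [Function.iterate_succ_apply', aeval_comp, ih, Function.iterate_succ_apply]

/-- the radical case -/
theorem rad_key {r : ℕ} (hr : r.Prime) (hrp : r ≠ p) {g : (ZMod p)[X]} (hg : Irreducible g) {i : ℕ}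
    (h : g ∣ (fun u => u.comp (phi p r))^[i] (psi p r)) :
    i < p.size * g.natDegree ∧ g.natDegree ∣ r ^ i * (r - 1) := by
  have : Fact (Irreducible g) := ⟨hg⟩
  have : Fact r.Prime := ⟨hr⟩
  have := charP_of_alg p (AdjoinRoot g)
  have hp : p.Prime := Fact.out
  set x := AdjoinRoot.root g
  have hx : aeval x g = 0 := by rw [AdjoinRoot.aeval_eq, AdjoinRoot.mk_self]
  have h1 := aeval_eq_zero_of_dvd_aeval_eq_zero h hx
  have h2 : (fun y : AdjoinRoot g => aeval y (phi p r)) = fun y => y ^ r := by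
    funext y
    rw [phi, if_neg hrp, map_pow, aeval_X]
  rw [aeval_iter, h2, pow_iterate, psi, if_neg hrp, map_sum] at h1
  simp only [map_pow, aeval_X] at h1
  have h3 := prim_root hr hrp h1
  have h4 : orderOf x = r ^ (i + 1) :=
    orderOf_eq_prime_pow (h3.ne_one hr.one_lt) (by rw [pow_succ, pow_mul, h3.pow_eq_one])
  have h0 : x ≠ 0 := fun h0 => by
    have := pow_orderOf_eq_one x
    rw [h4, h0, zero_pow (pow_ne_zero _ hr.ne_zero)] at this
    exact zero_ne_one this
  have key : ∀ n, g.natDegree ∣ n ↔ r ^ (i + 1) ∣ p ^ n - 1 := fun n => by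
    rw [deg_dvd_iff hg hx, Nat.card_zmod, ← h4, orderOf_dvd_iff_pow_eq_one]
    have h5 : p ^ n = p ^ n - 1 + 1 := (Nat.sub_add_cancel (Nat.one_le_pow _ _ hp.pos)).symm
    conv_lhs => rw [h5, pow_succ]
    exact mul_left_eq_self₀.trans (or_iff_left h0)
  constructor
  · have h5 := Nat.le_of_dvd (Nat.sub_pos_of_lt (Nat.one_lt_pow hg.natDegree_pos.ne' hp.one_lt))
      ((key _).1 dvd_rfl)
    have h6 : 2 ^ (i + 1) ≤ r ^ (i + 1) := Nat.pow_le_pow_left hr.two_le _
    have h7 : p ^ g.natDegree ≤ (2 ^ p.size) ^ g.natDegree :=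
      Nat.pow_le_pow_left (Nat.lt_size_self p).le _
    rw [← pow_mul] at h7
    have h8 : 2 ^ (i + 1) ≤ 2 ^ (p.size * g.natDegree) := by omega
    exact (Nat.pow_le_pow_iff_right one_lt_two).1 h8
  · rw [key, ← Nat.totient_prime_pow_succ hr, ← Nat.modEq_iff_dvd' (Nat.one_le_pow _ _ hp.pos)]
    exact (Nat.ModEq.pow_totient (((Nat.coprime_primes hp hr).2 hrp.symm).pow_right _)).symm

variable (p) in
/-- the Frobenius map as a linear map -/
noncomputable def fr (E : Type) [CommRing E] [Algebra (ZMod p) E] : Module.End (ZMod p) E :=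
  (FiniteField.frobeniusAlgHom (ZMod p) E).toLinearMap

theorem fr_pow {E : Type} [CommRing E] [Algebra (ZMod p) E] (n : ℕ) (x : E) :
    (fr p E ^ n) x = x ^ p ^ n := by
  rw [Module.End.pow_apply, fr, AlgHom.coe_toLinearMap, FiniteField.coe_frobeniusAlgHom,
    pow_iterate, ZMod.card]

/-- the Artin-Schreier case -/
theorem as_key {g : (ZMod p)[X]} (hg : Irreducible g) {i : ℕ}
    (h : g ∣ (fun u => u.comp (phi p p))^[i] (psi p p)) :
    i < g.natDegree ∧ g.natDegree ∣ p ^ i := by
  have : Fact (Irreducible g) := ⟨hg⟩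
  have hp : p.Prime := Fact.out
  have := (AdjoinRoot.powerBasis hg.ne_zero).finite
  set x := AdjoinRoot.root g
  have hx : aeval x g = 0 := by rw [AdjoinRoot.aeval_eq, AdjoinRoot.mk_self]
  have h1 := aeval_eq_zero_of_dvd_aeval_eq_zero h hx
  have h0 : ∀ y, (fr p (AdjoinRoot g) - 1) y = y ^ p - y := fun y => by
    rw [LinearMap.sub_apply, ← pow_one (fr p _), fr_pow, pow_one, Module.End.one_apply]
  have h2 : (fun y : AdjoinRoot g => aeval y (phi p p)) = ⇑(fr p (AdjoinRoot g) - 1) := by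
    funext y
    rw [phi, if_pos rfl, map_sub, map_pow, aeval_X, h0]
  rw [aeval_iter, h2, ← Module.End.pow_apply, psi, if_pos rfl, map_sub, aeval_X, map_one,
    sub_eq_zero] at h1
  have h3 : ((fr p (AdjoinRoot g) - 1) ^ (i + 1)) x = 0 := by
    rw [pow_succ', Module.End.mul_apply, h1, h0, one_pow, sub_self]
  constructor
  · by_contra h4
    have h5 := Module.End.ker_pow_le_ker_pow_finrank _ _ h3
    rw [(AdjoinRoot.powerBasis hg.ne_zero).finrank, AdjoinRoot.powerBasis_dim] at h5
    rw [Module.End.pow_map_zero_of_le (not_lt.1 h4) h5] at h1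
    exact zero_ne_one h1
  · have : CharP (Module.End (ZMod p) (AdjoinRoot g)) p :=
      charP_of_injective_algebraMap (algebraMap (ZMod p) _).injective p
    have h4 := Module.End.pow_map_zero_of_le (Nat.lt_pow_self hp.one_lt : i < p ^ i) h3
    rw [sub_pow_char_pow_of_commute _ _ (Commute.one_right _), one_pow, LinearMap.sub_apply, fr_pow,
      sub_eq_zero] at h4
    rw [deg_dvd_iff hg hx, Nat.card_zmod]
    exact h4

theorem tow_spec {r : ℕ} (hr : r.Prime) (e : ℕ) :
    r ^ e ∣ (tow p r (r ^ e) (p.size * r ^ e)).natDegree := by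
  obtain ⟨-, h2, i, h3, h4⟩ := tow_inv (p := p) hr (r ^ e) (p.size * r ^ e)
  have hp : p.Prime := Fact.out
  have h5 : i < p.size * (tow p r (r ^ e) (p.size * r ^ e)).natDegree ∧
      (tow p r (r ^ e) (p.size * r ^ e)).natDegree ∣ r ^ i * (r - 1) := by
    by_cases hrp : r = p
    · subst hrp
      obtain ⟨k1, k2⟩ := as_key h2 h4
      exact ⟨k1.trans_le (Nat.le_mul_of_pos_left _ (Nat.size_pos.2 hp.pos)), k2.mul_right _⟩
    · exact rad_key hr hrp h2 h4
  generalize (tow p r (r ^ e) (p.size * r ^ e)).natDegree = d at h3 h5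
  have h6 : r ^ e ≤ d := by
    rcases h3 with rfl | h3
    · exact (Nat.lt_of_mul_lt_mul_left h5.1).le
    · exact h3
  obtain ⟨a, c, ha, hc, rfl⟩ := exists_dvd_and_dvd_of_dvd_mul h5.2
  obtain ⟨t, -, rfl⟩ := (Nat.dvd_prime_pow hr).1 ha
  refine (pow_dvd_pow r ?_).mul_right c
  have h7 : c < r := by
    have := Nat.le_of_dvd (Nat.sub_pos_of_lt hr.one_lt) hc
    have := hr.pos
    omega
  have h8 : r ^ e < r ^ (t + 1) :=
    h6.trans_lt (by rw [pow_succ]; exact Nat.mul_lt_mul_of_pos_left h7 (pow_pos hr.pos t))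
  exact Nat.le_of_lt_succ ((Nat.pow_lt_pow_iff_right hr.one_lt).1 h8)

/-! ### Subfields and composita -/

/-- an irreducible polynomial of degree `N` from one whose degree is a multiple of `N` -/
noncomputable def extr (g : (ZMod p)[X]) (N : ℕ) : (ZMod p)[X] :=
  pick (facP p) N ((kerP (fun v => pmod g v (p ^ N) - v %ₘ g) g.natDegree
    (monos _ g.natDegree)).flatMap fun v => rels g v N)

theorem extr_spec {g : (ZMod p)[X]} (hm : g.Monic) (hg : Irreducible g) {r e : ℕ} (hr : r.Prime)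
    (h : r ^ (e + 1) ∣ g.natDegree) : MI (r ^ (e + 1)) (extr g (r ^ (e + 1))) := by
  have : Fact (Irreducible g) := ⟨hg⟩
  have := (AdjoinRoot.powerBasis hg.ne_zero).finite
  have : Finite (AdjoinRoot g) := Module.finite_of_finite (ZMod p)
  have hN : r ^ (e + 1) ≠ 0 := pow_ne_zero _ hr.ne_zero
  have key : ∀ (y : AdjoinRoot g) n, (minpoly (ZMod p) y).natDegree ∣ n ↔ y ^ p ^ n = y :=
    fun y n => by
      rw [deg_dvd_iff (minpoly.irreducible (IsIntegral.of_finite _ y)) (minpoly.aeval _ y),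
        Nat.card_zmod]
  obtain ⟨x, hx⟩ : ∃ x : AdjoinRoot g, (minpoly (ZMod p) x).natDegree = r ^ (e + 1) := by
    obtain ⟨φ⟩ := FiniteField.nonempty_algHom_of_finrank_dvd (F := ZMod p)
      (K := GaloisField p (r ^ (e + 1))) (L := AdjoinRoot g) (by
        rw [GaloisField.finrank _ hN, (AdjoinRoot.powerBasis hg.ne_zero).finrank,
          AdjoinRoot.powerBasis_dim]
        exact h)
    obtain ⟨y, hy⟩ := Field.exists_primitive_element (ZMod p) (GaloisField p (r ^ (e + 1)))
    rw [Field.primitive_element_iff_minpoly_natDegree_eq, GaloisField.finrank _ hN] at hy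
    exact ⟨φ y, by rw [minpoly.algHom_eq φ φ.injective, hy]⟩
  let T : ℕ → (ZMod p)[X] →ₗ[ZMod p] AdjoinRoot g := fun n =>
    (fr p (AdjoinRoot g) ^ n - 1).comp (AdjoinRoot.mkₐ g).toLinearMap
  have hT : ∀ n v, T n v = AdjoinRoot.mk g v ^ p ^ n - AdjoinRoot.mk g v := fun n v => by
    rw [← fr_pow]
    rfl
  let Φ := (AdjoinRoot.modByMonicHom hm).comp (T (r ^ (e + 1)))
  have hΦ : ∀ v, Φ v = (v ^ p ^ r ^ (e + 1) - v) %ₘ g := fun v => by
    rw [← AdjoinRoot.modByMonicHom_mk hm, map_sub, map_pow, ← hT]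
    rfl
  have e1 : (fun v => pmod g v (p ^ r ^ (e + 1)) - v %ₘ g) = Φ := by
    funext v
    rw [hΦ, pmod_eq hm, sub_modByMonic]
  have h1 : ∀ v, v ∈ spanL (kerP Φ g.natDegree (monos _ g.natDegree)) ↔ v.degree < g.natDegree ∧
      (minpoly (ZMod p) (AdjoinRoot.mk g v)).natDegree ∣ r ^ (e + 1) := fun v => by
    rw [mem_span_kerP_monos Φ (fun v => by rw [hΦ]; exact degree_mod_lt hm _), hΦ,
      modByMonic_eq_zero_iff_dvd hm, key, ← AdjoinRoot.mk_eq_mk, map_pow]
  have h2 : ∀ v, v ∈ LinearMap.ker (T (r ^ e)) ↔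
      (minpoly (ZMod p) (AdjoinRoot.mk g v)).natDegree ∣ r ^ e := fun v => by
    rw [LinearMap.mem_ker, hT, key, sub_eq_zero]
  obtain ⟨w, hw, hw1⟩ := exists_mem_not_mem ((h1 (rep x)).2 ⟨by
    rw [← degree_eq_natDegree hm.ne_zero]; exact degree_rep_lt hm x, by rw [mk_rep, hx]⟩)
    (S := LinearMap.ker (T (r ^ e))) (by
      rw [h2, mk_rep, hx, Nat.pow_dvd_pow_iff_le_right hr.one_lt]
      omega)
  have h3 : (minpoly (ZMod p) (AdjoinRoot.mk g w)).natDegree = r ^ (e + 1) := by
    obtain ⟨t, ht, h4⟩ := (Nat.dvd_prime_pow hr).1 ((h1 w).1 (mem_spanL hw)).2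
    rw [h2, h4, Nat.pow_dvd_pow_iff_le_right hr.one_lt] at hw1
    rw [h4, show t = e + 1 by omega]
  have hi : IsIntegral (ZMod p) (AdjoinRoot.mk g w) := IsIntegral.of_finite _ _
  obtain ⟨u, hu, hu0⟩ := exists_mem_not_mem ((mem_span_rels hm w (r ^ (e + 1)) _).2
    ⟨degree_le_natDegree.trans_lt (by rw [h3]; exact_mod_cast Nat.lt_succ_self _),
      minpoly.aeval _ _⟩) (S := ⊥) (by rw [Submodule.mem_bot]; exact minpoly.ne_zero hi)
  rw [Submodule.mem_bot] at hu0
  obtain ⟨h4, h5⟩ := (mem_span_rels hm w _ _).1 (mem_spanL hu)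
  rw [degree_eq_natDegree hu0] at h4
  have h6 := mi_of_aeval hi hu0 (by rw [h3]; exact Nat.le_of_lt_succ (by exact_mod_cast h4)) h5
  rw [h3] at h6
  refine pick_spec facP_spec (List.mem_flatMap.2 ⟨w, ?_, hu⟩) h6
  rw [e1]
  exact hw

/-- the minimal polynomial of the sum of a root of `g` and a root of `h` -/
noncomputable def comb (g h : (ZMod p)[X]) : (ZMod p)[X] :=
  pick (facP p) (g.natDegree * h.natDegree)
    (relsK (coAdj (monomial 0) 1 (mon_monic g)) g.natDegree (h.map (algebraMap _ _))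
      (X + C (AdjoinRoot.root (mon g))) (g.natDegree * h.natDegree))

theorem comb_spec {g h : (ZMod p)[X]} {a b : ℕ} (hg : MI a g) (hh : MI b h) (hab : a.Coprime b) :
    MI (a * b) (comb g h) := by
  have e0 := mon_eq hg.1
  have : Fact (Irreducible (mon g)) := ⟨e0.symm ▸ hg.2.1⟩
  have hP := (pres_self (ZMod p)).adjoin (mon_monic g)
  have hG : (h.map (algebraMap _ (AdjoinRoot (mon g)))).Monic := hh.1.map _
  have e1 : ((gens [(1 : ZMod p)] (mon g).natDegree).map (AdjoinRoot.mk (mon g))).length = a := by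
    rw [List.length_map, length_gens, natDegree_mon, hg.2.2, List.length_singleton, mul_one]
  obtain ⟨k1, k2⟩ := hP.finrank_adj hG
  rw [e1, natDegree_map, hh.2.2, mul_comm] at k2
  obtain ⟨u, hu, hu0, hu1, hu2⟩ := hP.exists_rel hG (X + C (AdjoinRoot.root (mon g)))
    ((minpoly.natDegree_le (A := ZMod p) _).trans k2)
  rw [e1] at hu
  obtain ⟨y, hy⟩ := IsAlgClosed.exists_aeval_eq_zero (AlgebraicClosure (AdjoinRoot (mon g)))
    (h.map (algebraMap _ (AdjoinRoot (mon g)))) (by
      rw [degree_map]; exact hh.2.1.degree_pos.ne')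
  have h1 := aeval_eq_zero_of_dvd_aeval_eq_zero hu2 hy
  rw [aeval_map_algebraMap] at hy
  set x := algebraMap _ (AlgebraicClosure (AdjoinRoot (mon g))) (AdjoinRoot.root (mon g)) with hx0
  have hx : aeval x g = 0 := by
    rw [hx0, aeval_algebraMap_apply, AdjoinRoot.aeval_eq, AdjoinRoot.mk_eq_zero.2 e0.dvd, map_zero]
  have h2 : aeval (y + x) u = 0 := by
    rw [← h1]
    have := aeval_algHom_apply ((aeval y).restrictScalars (ZMod p))
      (X + C (AdjoinRoot.root (mon g))) u
    simpa using this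
  have hi : IsIntegral (ZMod p) (y + x) := IsIntegral.add ⟨h, hh.1, hy⟩ ⟨g, hg.1, hx⟩
  have := charP_of_alg p (AlgebraicClosure (AdjoinRoot (mon g)))
  have kx := deg_dvd_iff hg.2.1 hx
  have ky := deg_dvd_iff hh.2.1 hy
  have kz := deg_dvd_iff (minpoly.irreducible hi) (minpoly.aeval _ _)
  simp only [Nat.card_zmod, hg.2.2, hh.2.2, add_pow_char_pow] at kx ky kz
  have h3 : (minpoly (ZMod p) (y + x)).natDegree = a * b := by
    refine Nat.dvd_antisymm ?_ (hab.mul_dvd_of_dvd_of_dvd ?_ ?_)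
    · rw [kz, (kx _).1 (dvd_mul_right a b), (ky _).1 (dvd_mul_left b a)]
    · refine hab.dvd_of_dvd_mul_right ((kx _).2 ?_)
      have h4 := (kz _).1 (dvd_mul_right _ b)
      rwa [(ky _).1 (dvd_mul_left b _), add_right_inj] at h4
    · refine hab.symm.dvd_of_dvd_mul_right ((ky _).2 ?_)
      have h4 := (kz _).1 (dvd_mul_right _ a)
      rwa [(kx _).1 (dvd_mul_left a _), add_left_inj] at h4
  have h4 := mi_of_aeval hi hu0 (h3 ▸ hu1) h2
  rw [h3] at h4
  rw [comb, hg.2.2, hh.2.2]
  exact pick_spec facP_spec hu h4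

/-! ### All degrees -/

variable (p) in
/-- an irreducible polynomial of prime power degree -/
noncomputable def irrPP (r N : ℕ) : (ZMod p)[X] := extr (tow p r N (p.size * N)) N

theorem irrPP_spec {r e : ℕ} (hr : r.Prime) (he : e ≠ 0) : MI (r ^ e) (irrPP p r (r ^ e)) := by
  obtain ⟨e, rfl⟩ := Nat.exists_eq_succ_of_ne_zero he
  obtain ⟨h1, h2, -⟩ := tow_inv (p := p) hr (r ^ (e + 1)) (p.size * r ^ (e + 1))
  exact extr_spec h1 h2 hr (tow_spec hr _)

variable (p) in
/-- the primes below `m` are treated -/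
noncomputable def irrUp (n m : ℕ) : (ZMod p)[X] :=
  (List.range m).foldl (fun g r => if r.Prime ∧ padicValNat r n ≠ 0 then
    comb g (irrPP p r (r ^ padicValNat r n)) else g) X

theorem irrUp_spec (n m : ℕ) :
    MI (∏ r ∈ Finset.range m with r.Prime, r ^ padicValNat r n) (irrUp p n m) := by
  induction m with
  | zero => exact ⟨monic_X, irreducible_X, natDegree_X⟩
  | succ m ih =>
    rw [irrUp, List.range_succ, List.foldl_append, List.foldl_cons, List.foldl_nil,
      Finset.prod_filter, Finset.prod_range_succ, ← Finset.prod_filter]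
    by_cases h : m.Prime ∧ padicValNat m n ≠ 0
    · rw [if_pos h, if_pos h.1]
      refine comb_spec ih (irrPP_spec h.1 h.2) (Nat.Coprime.prod_left fun r hr => ?_)
      obtain ⟨h1, h2⟩ := Finset.mem_filter.1 hr
      exact Nat.coprime_pow_primes _ _ h2 h.1 (Finset.mem_range.1 h1).ne
    · rw [if_neg h]
      have : (if m.Prime then m ^ padicValNat m n else 1) = 1 := by
        split_ifs with h1
        · rw [not_not.1 fun h2 => h ⟨h1, h2⟩, pow_zero]
        · rfl
      rw [this, mul_one]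
      exact ih

theorem irrUp_deg (n m : ℕ) : (irrUp p n m).natDegree ≤ n + 1 := by
  rw [(irrUp_spec n m).2.2]
  rcases Nat.eq_zero_or_pos n with rfl | h
  · simp
  · refine (Nat.le_of_dvd h ?_).trans (Nat.le_succ n)
    conv_rhs => rw [← Nat.prod_pow_prime_padicValNat n h.ne' (m + n + 1) (by omega)]
    exact Finset.prod_dvd_prod_of_subset _ _ _
      (Finset.filter_subset_filter _ (Finset.range_subset_range.2 (by omega)))

variable (p) in
/-- an irreducible polynomial of degree `n` over the prime field -/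
noncomputable def irrP (n : ℕ) : (ZMod p)[X] := irrUp p n (n + 1)

theorem irrP_spec {n : ℕ} (hn : n ≠ 0) : MI n (irrP p n) := by
  have := irrUp_spec (p := p) n (n + 1)
  rwa [Nat.prod_pow_prime_padicValNat n hn _ (Nat.lt_succ_self n)] at this

variable {K : Type} [Field K] [Algebra (ZMod p) K]

/-- an irreducible polynomial of degree `n` over a finite field -/
noncomputable def irrK (bs : List K) (co : K → (ZMod p)[X]) (n : ℕ) : K[X] :=
  hd1 (facK bs co) ((irrP p (n * bs.length)).map (algebraMap _ K))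

theorem Pres.irrK_spec {bs : List K} {co : K →ₗ[ZMod p] (ZMod p)[X]} (h : Pres bs co)
    (hd : Module.finrank (ZMod p) K = bs.length) {n : ℕ} (hn : n ≠ 0) : MI n (irrK bs co n) := by
  obtain ⟨k1, k2, k3⟩ := h.card
  rw [hd] at k2 k3
  have h0 := Nat.mul_pos (Nat.pos_of_ne_zero hn) k3
  obtain ⟨h1, h2, h3⟩ := irrP_spec (p := p) h0.ne'
  obtain ⟨h4, h5, h6⟩ := hd1_spec h.facK_spec
    (u := (irrP p (n * bs.length)).map (algebraMap _ K)) (by rwa [natDegree_map, h3])
  change (irrK bs co n).Monic at h4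
  change Irreducible (irrK bs co n) at h5
  change irrK bs co n ∣ _ at h6
  refine ⟨h4, h5, ?_⟩
  have : Fact (Irreducible (irrK bs co n)) := ⟨h5⟩
  have hx : aeval (AdjoinRoot.root (irrK bs co n)) (irrK bs co n) = 0 := by
    rw [AdjoinRoot.aeval_eq, AdjoinRoot.mk_self]
  have h7 := aeval_eq_zero_of_dvd_aeval_eq_zero h6 hx
  rw [aeval_map_algebraMap] at h7
  have key : ∀ t, (irrK bs co n).natDegree ∣ t ↔ n ∣ t := fun t => by
    rw [deg_dvd_iff h5 hx, k2, ← pow_mul, ← Nat.mul_dvd_mul_iff_right k3, ← h3,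
      deg_dvd_iff h2 h7, Nat.card_zmod, mul_comm]
  exact Nat.dvd_antisymm ((key _).2 dvd_rfl) ((key _).1 dvd_rfl)

end Tower

/-! ### Polynomial time -/

section PT

variable {α : Type} [Enc α]

section

variable {K : α → Type} [∀ a, Field (K a)] [∀ a, Code (K a)] {fac : ∀ a, (K a)[X] → List (K a)[X]}

theorem dpt_hd1 {u : ∀ a, (K a)[X]} (hK : PTField K) (hu : DPT u)
    (hf : DPT (fun a => fac a (u a))) : DPT (fun a => hd1 (fac a) (u a)) := by
  unfold hd1
  fun_prop

theorem dpt_pick {n : α → ℕ} {L : ∀ a, List (K a)[X]} (hK : PTField K)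
    (hf : DPT (fun q : Σ a, (K a)[X] => fac q.1 q.2)) (hn : DPT n) (hL : DPT L) :
    DPT (fun a => pick (fac a) (n a) (L a)) := by
  have h1 := DPT.fn (fun a u => hd1 (fac a) u) (dpt_hd1 (hK.comp DPT.id.sfst) DPT.ssnd hf)
  unfold pick
  fun_prop

end

variable {p : α → ℕ} [∀ a, Fact (p a).Prime]

@[fun_prop]
theorem dpt_hd1P {u : ∀ a, (ZMod (p a))[X]} (hp : DPT p) (hu : DPT u) :
    DPT (fun a => hd1 (facP (p a)) (u a)) := dpt_hd1 (by fun_prop) hu (by fun_prop)

theorem dpt_tow {r N j : α → ℕ} (hp : DPT p) (hr : DPT r) (hr' : PBd r) (hN : DPT N) (hN' : PBd N)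
    (hj : DPT j) (hj' : PBd j) : DPT (fun a => tow (p a) (r a) (N a) (j a)) := by
  have h1 : DPT (fun a => phi (p a) (r a)) := by
    unfold phi
    fun_prop
  have h2 : DPT (fun a => psi (p a) (r a)) := by
    unfold psi
    fun_prop
  refine DPT.iterate_ht (by fun_prop) hj hj' (by fun_prop) (DPT.ite (by fun_prop)
    (dpt_hd1P (by fun_prop) (DPT.polyComp (by fun_prop) DPT.ssnd (h1.comp DPT.id.sfst))) DPT.ssnd)
    (b := fun a => r a + N a * r a) (by fun_prop) fun a i _ => ?_
  rw [ht_poly_eq]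
  exact tow_deg _ _ _

theorem dpt_extr {g : ∀ a, (ZMod (p a))[X]} {N : α → ℕ} (hp : DPT p) (hg : DPT g) (hN : DPT N)
    (hN' : PBd N) : DPT (fun a => extr (g a) (N a)) := by
  have h1 : DPT (fun a => kerP (fun v => pmod (g a) v (p a ^ N a) - v %ₘ g a) (g a).natDegree
      (monos _ (g a).natDegree)) :=
    dpt_kerP (by fun_prop) (by fun_prop) (by fun_prop) (by fun_prop) (by fun_prop)
  exact dpt_pick (by fun_prop) (by fun_prop) hN (by fun_prop)

theorem dpt_comb {g h : ∀ a, (ZMod (p a))[X]} (hp : DPT p) (hg : DPT g) (hh : DPT h) :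
    DPT (fun a => comb (g a) (h a)) := by
  have h1 := dpt_coAdj (co := fun a => monomial (R := ZMod (p a)) 0) (m := fun _ => 1)
    (fun a => mon_monic (g a)) (PTRing.zmod hp) (PTRing.zmod hp) (by fun_prop) (by fun_prop)
    (by fun_prop) (by fun_prop)
  have h2 : PTAlg (fun a => ZMod (p a)) (fun a => AdjoinRoot (mon (g a))) := ⟨by fun_prop⟩
  refine dpt_pick (by fun_prop) (by fun_prop) (by fun_prop) ?_
  exact dpt_relsK (by fun_prop) (by fun_prop) h2 h1 (by fun_prop) (by fun_prop) (by fun_prop)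
    (by fun_prop) (by fun_prop) (by fun_prop)

theorem dpt_irrP {n : α → ℕ} (hp : DPT p) (hn : DPT n) (hn' : PBd n) :
    DPT (fun a => irrP (p a) (n a)) := by
  have h1 : PBd (fun q : Σ a, (ZMod (p a))[X] × {x // x ∈ List.range (n a + 1)} =>
      q.2.2.1 ^ padicValNat q.2.2.1 (n q.1)) := by
    refine PBd.mono (b := fun q => n q.1 + 1) (by fun_prop) fun q => ?_
    rcases Nat.eq_zero_or_pos (n q.1) with h | h
    · simp [h]
    · exact (Nat.le_of_dvd h pow_padicValNat_dvd).trans (Nat.le_succ _)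
  refine DPT.foldl_ht (by fun_prop) (by fun_prop) (by fun_prop) ?_ (b := fun a => n a + 1)
    (by fun_prop) fun a i => ?_
  · refine DPT.ite (by fun_prop) (dpt_comb (by fun_prop) (by fun_prop) (dpt_extr (by fun_prop)
      (dpt_tow (by fun_prop) (by fun_prop) (by fun_prop) (by fun_prop) h1 (by fun_prop)
      (PBd.mul (by fun_prop) h1)) (by fun_prop) h1)) (by fun_prop)
  · rw [List.take_range, ht_poly_eq]
    exact irrUp_deg _ _

theorem Fam.dpt_irrK {K : α → Type} [∀ a, Field (K a)] [∀ a, Code (K a)] [∀ a, HtZero (K a)]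
    [∀ a, Algebra (ZMod (p a)) (K a)] {bs : ∀ a, List (K a)}
    {co : ∀ a, K a →ₗ[ZMod (p a)] (ZMod (p a))[X]} (h : Fam p K bs co) {n : α → ℕ} (hn : DPT n)
    (hn' : PBd n) : DPT (fun a => irrK (bs a) (co a) (n a)) := by
  have h1 := h.hbs
  have h2 : DPT (fun a => (irrP (p a) (n a * (bs a).length)).map (algebraMap _ (K a))) :=
    DPT.polyMap (PTRing.zmod h.hp) h.ring h.alg.map (dpt_irrP h.hp (by fun_prop) (by fun_prop))
  exact dpt_hd1 h.field h2 (h.dpt_facK h2)

end PT

end Vale.Agent.N319
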